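import Crest.Agent.N337.C.Defs
import Crest.Agent.N337.Asy.Basic
import Crest.Agent.N337.Free.Tor
import Crest.Agent.N337.Th.Fin
import Crest.Agent.N337.C.Dot
import Crest.Agent.N337.LY.Newton

-- ▼ part N337/C/Tor
section

/-!
# Row 337, S0527 closing: the periodic cubes of the statement (helper5)
-/

set_option autoImplicit false

namespace Crest.Agent.N337.C.Tr

open Crest.MathPhysics.SpinModel Filter Topology Crest.Agent.N337.Free

/-- adjacency coupling on the periodic cube. -/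
noncomputable def Jadj (L : ℕ) (x y : Torus 3 L) : ℝ := if TorusAdj x y then 1 else 0

/-- the identification of sites. -/
def eqv (L : ℕ) : Torus 3 (L + 1) ≃ Tor 3 (L + 1) :=
  Equiv.piCongrRight fun _ => (ZMod.finEquiv (L + 1)).toEquiv

theorem eqv_val (L : ℕ) (x : Torus 3 (L + 1)) (a : Fin 3) : (eqv L x a).val = x a := rfl

theorem eqv_eq {L : ℕ} (x y : Torus 3 (L + 1)) (a : Fin 3) : eqv L x a = eqv L y a ↔ x a = y a :=
  (ZMod.finEquiv (L + 1)).toEquiv.injective.eq_iff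

theorem succ_iff {L : ℕ} (hL : 2 ≤ L) (x y : Torus 3 (L + 1)) (a : Fin 3) :
    ((x a : ℕ) + 1) % (L + 1) = (y a : ℕ) ↔ eqv L y a - eqv L x a = 1 := by
  haveI : Fact (1 < L + 1) := ⟨by omega⟩
  rw [sub_eq_iff_eq_add', ← (ZMod.val_injective (L + 1)).eq_iff, ZMod.val_add, ZMod.val_one,
    eqv_val, eqv_val, eq_comm]

theorem adj_iff {L : ℕ} (hL : 2 ≤ L) (x y : Torus 3 (L + 1)) :
    TorusAdj x y ↔ ∃ z ∈ Asy.units 3, tcast (L + 1) z = eqv L y - eqv L x := by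
  have hs : ∀ (a : Fin 3) (c : ℤ), tcast (L + 1) (Pi.single a c) = eqv L y - eqv L x ↔
      (∀ b, b ≠ a → x b = y b) ∧ eqv L y a - eqv L x a = (c : ZMod (L + 1)) := by
    intro a c
    constructor
    · intro h
      refine ⟨fun b hb => ?_, ?_⟩
      · have := congrFun h b
        simp only [tcast, Pi.single_eq_of_ne hb, Int.cast_zero, Pi.sub_apply] at this
        exact ((eqv_eq y x b).1 (sub_eq_zero.1 this.symm)).symm
      · have := congrFun h a
        simpa only [tcast, Pi.single_eq_same, Pi.sub_apply] using this.symm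
    · rintro ⟨h1, h2⟩
      funext b
      by_cases hb : b = a
      · subst hb; simp only [tcast, Pi.single_eq_same, Pi.sub_apply, h2]
      · simp only [tcast, Pi.single_eq_of_ne hb, Int.cast_zero, Pi.sub_apply]
        exact (sub_eq_zero.2 ((eqv_eq y x b).2 (h1 b hb).symm)).symm
  simp only [Asy.mem_units, Asy.sum_abs_eq_one_iff]
  constructor
  · rintro ⟨a, h1, h2 | h2⟩
    · exact ⟨_, ⟨a, Or.inl rfl⟩, (hs a 1).2 ⟨h1, by simpa using (succ_iff hL x y a).1 h2⟩⟩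
    · refine ⟨_, ⟨a, Or.inr rfl⟩, (hs a (-1)).2 ⟨h1, ?_⟩⟩
      rw [← neg_sub, (succ_iff hL y x a).1 h2]; simp
  · rintro ⟨z, ⟨a, rfl | rfl⟩, h⟩
    · obtain ⟨h1, h2⟩ := (hs a 1).1 h
      exact ⟨a, h1, Or.inl ((succ_iff hL x y a).2 (by simpa using h2))⟩
    · obtain ⟨h1, h2⟩ := (hs a (-1)).1 h
      refine ⟨a, h1, Or.inr ((succ_iff hL y x a).2 ?_)⟩
      rw [← neg_sub, h2]; simp

theorem torJ_eqv {L : ℕ} (hL : 2 ≤ L) (x y : Torus 3 (L + 1)) :
    torJ (nnCoupling 3) (L + 1) (eqv L x) (eqv L y) = Jadj (L + 1) x y := by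
  have hJ := Asy.coup_nn 3
  have hsp : ∀ z, z ∈ sp hJ ↔ z ∈ Asy.units 3 := fun z => by
    rw [mem_sp, ← Finset.mem_coe, ← Asy.support_nn]; rfl
  have h1 : ∀ z ∈ Asy.units 3, nnCoupling 3 z = 1 := fun z hz => if_pos (Asy.mem_units.1 hz)
  have hb : ∀ z ∈ Asy.units 3, ∀ a, |z a| ≤ 1 := fun z hz a => by
    rw [← Asy.mem_units.1 hz]
    exact Finset.single_le_sum (f := fun a => |z a|) (fun _ _ => abs_nonneg _) (Finset.mem_univ a)
  rw [torJ_eq hJ, Jadj]
  split_ifs with h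
  · obtain ⟨z, hz, e⟩ := (adj_iff hL x y).1 h
    rw [Finset.sum_eq_single z, if_pos e, h1 z hz]
    · intro z' hz' hne
      refine if_neg fun e' => hne (funext fun a => ?_)
      have h2 : ((z' a - z a : ℤ) : ZMod (L + 1)) = 0 := by
        have := congrFun (e'.trans e.symm) a
        simp only [tcast] at this
        rw [Int.cast_sub, this, sub_self]
      have h3 := (ZMod.intCast_zmod_eq_zero_iff_dvd _ _).1 h2
      have h4 := abs_le.1 (hb z hz a)
      have h5 := abs_le.1 (hb z' ((hsp z').1 hz') a)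
      have := Int.eq_zero_of_dvd_of_natAbs_lt_natAbs h3 (by simp; omega)
      omega
    · intro hz'; exact absurd ((hsp z).2 hz) hz'
  · exact Finset.sum_eq_zero fun z hz => if_neg fun e =>
      h ((adj_iff hL x y).2 ⟨z, (hsp z).1 hz, e⟩)

theorem ferro_adj {L : ℕ} (hL : 2 ≤ L) (hF : Ferro (torJ (nnCoupling 3) (L + 1))) :
    Ferro (Jadj (L + 1)) :=
  ⟨fun x y => by rw [← torJ_eqv hL, ← torJ_eqv hL, hF.symm],
    fun x y => by rw [← torJ_eqv hL]; exact hF.nonneg _ _,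
    fun x => by rw [← torJ_eqv hL]; exact hF.diag _⟩

theorem Zc_reix {X X' : Type} [Fintype X] [DecidableEq X] [Fintype X'] [DecidableEq X'] {n : ℕ}
    {J : X → X → ℝ} {J' : X' → X' → ℝ} {e : X ≃ X'} (hJ : ∀ x y, J' (e x) (e y) = J x y)
    (β : ℝ) (N : ℕ) : Zc n J β N = Zc n J' β N := by
  simp only [Zc, ← reix_W hJ, reix_apply]
  refine Fintype.sum_equiv (cfg n e) _ _ fun σ => ?_
  have h1 : (cfg n e σ) ∘ e = σ := by funext x; simp [cfg]
  have h2 : ∑ x, (n - (cfg n e σ x : ℕ)) = ∑ x, (n - (σ x : ℕ)) :=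
    (Fintype.sum_equiv e _ _ fun x => by rw [← congrFun h1 x]; rfl).symm
  rw [h1, h2]

theorem ham_eq (L n : ℕ) : torusHamiltonian 3 L n = ham n (Jadj L) := by
  simp only [torusHamiltonian, ham, Jadj]
  congr 1
  refine Finset.sum_congr rfl fun x _ => Finset.sum_congr rfl fun y _ => ?_
  split_ifs <;> simp

theorem press_eq (L n : ℕ) (β h : ℝ) : torusPressure 3 L n β h = press n (Jadj L) β h := by
  rw [torusPressure, press, Zp, W, hamF, ham_eq]
  congr 2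
  simp

theorem gibbs_eq (L n : ℕ) (β : ℝ) (A : Op (Torus 3 L) n) :
    torusGibbs 3 L n β A = (A * W n (Jadj L) 0 β).trace / (Zp n (Jadj L) β 0 : ℂ) := by
  have : (W n (Jadj L) 0 β).trace = (Zp n (Jadj L) β 0 : ℂ) :=
    Complex.ext rfl (by rw [Th.W_trace_im]; simp)
  rw [← this, torusGibbs, W, hamF_zero, ham_eq]

variable {L n : ℕ} {β : ℝ}

theorem card_torus (L : ℕ) : Fintype.card (Torus 3 L) = L ^ 3 := by simp

theorem mgf_eq (hR : RotStmt) (hL : 2 ≤ L) (hF : Ferro (torJ (nnCoupling 3) (L + 1)))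
    (t : Fin 3 → ℝ) :
    torusGibbs 3 (L + 1) n β (NormedSpace.exp (((1 : ℂ) / (((L + 1 : ℕ) : ℂ) ^ 3)) •
      ∑ a : Fin 3, ((t a : ℝ) : ℂ) • torusSpin 3 (L + 1) n a)) =
    (((∑ N ∈ Finset.range (n * (L + 1) ^ 3 + 1), Zc n (torJ (nnCoupling 3) (L + 1)) β N *
      Real.exp (Real.sqrt (∑ a, t a ^ 2) / ((L + 1) ^ 3 : ℕ) *
        ((n : ℝ) * ((L + 1) ^ 3 : ℕ) / 2 - N))) /
      ∑ N ∈ Finset.range (n * (L + 1) ^ 3 + 1), Zc n (torJ (nnCoupling 3) (L + 1)) β N : ℝ) : ℂ) := by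
  obtain ⟨r1, -, r3, -⟩ := hR (Torus 3 (L + 1)) n (Jadj (L + 1)) β (ferro_adj hL hF)
  have hV : (0 : ℝ) < (((L + 1) ^ 3 : ℕ) : ℝ) := by positivity
  have e1 : ((1 : ℂ) / (((L + 1 : ℕ) : ℂ) ^ 3)) •
      ∑ a : Fin 3, ((t a : ℝ) : ℂ) • torusSpin 3 (L + 1) n a =
      ∑ a : Fin 3, ((t a / ((L + 1) ^ 3 : ℕ) : ℝ) : ℂ) •
        ∑ x : Torus 3 (L + 1), siteOpOn x (spinComp n a) := by
    rw [Finset.smul_sum]
    refine Finset.sum_congr rfl fun a _ => ?_
    rw [smul_smul, torusSpin]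
    congr 1; push_cast; ring
  have e2 : Real.sqrt (∑ a, (t a / ((L + 1) ^ 3 : ℕ)) ^ 2) =
      Real.sqrt (∑ a, t a ^ 2) / ((L + 1) ^ 3 : ℕ) := by
    simp only [div_pow]
    rw [← Finset.sum_div, Real.sqrt_div' _ (by positivity), Real.sqrt_sq hV.le]
  rw [gibbs_eq, e1, r3, r1 0, e2]
  simp only [card_torus, Zc_reix (torJ_eqv hL), mul_zero, zero_mul, Real.exp_zero, mul_one]
  push_cast; rfl

theorem dot_eq' (hR : RotStmt) (hL : 2 ≤ L) (hF : Ferro (torJ (nnCoupling 3) (L + 1))) :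
    ((1 : ℂ) / (((L + 1 : ℕ) : ℂ) ^ 3) ^ 2) * ∑ x : Torus 3 (L + 1), ∑ y : Torus 3 (L + 1),
      torusGibbs 3 (L + 1) n β (spinDotOn n x y) =
    (((3 * ∑ N ∈ Finset.range (n * (L + 1) ^ 3 + 1), Zc n (torJ (nnCoupling 3) (L + 1)) β N *
      ((n : ℝ) * ((L + 1) ^ 3 : ℕ) / 2 - N) ^ 2) / (((L + 1) ^ 3 : ℕ) : ℝ) ^ 2 /
      ∑ N ∈ Finset.range (n * (L + 1) ^ 3 + 1), Zc n (torJ (nnCoupling 3) (L + 1)) β N : ℝ) : ℂ) := by
  obtain ⟨r1, -, -, r4⟩ := hR (Torus 3 (L + 1)) n (Jadj (L + 1)) β (ferro_adj hL hF)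
  simp only [gibbs_eq, ← Finset.sum_div]
  rw [r4, r1 0]
  simp only [card_torus, Zc_reix (torJ_eqv hL), mul_zero, zero_mul, Real.exp_zero, mul_one]
  push_cast; ring

theorem press_eq' (hL : 2 ≤ L) (h : ℝ) :
    torusPressure 3 (L + 1) n β h = press n (torJ (nnCoupling 3) (L + 1)) β h := by
  rw [press_eq, press_reix (torJ_eqv hL)]

theorem tendsto_even {α : Type} {g : ℕ → α} {f : ℕ → α} {l : Filter α}
    (h : ∀ᶠ L in atTop, g (L + 1) = f L) (hf : Tendsto f atTop l) :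
    Tendsto (fun k => g (2 * k)) atTop l := by
  have h1 : Tendsto (fun L => g (L + 1)) atTop l := hf.congr' (h.mono fun _ e => e.symm)
  exact ((tendsto_add_atTop_iff_nat 1).1 h1).comp
    (tendsto_id.const_mul_atTop' (by norm_num : 0 < 2))

end Crest.Agent.N337.C.Tr
end

-- ▼ part N337/C/Newman
section

/-!
# Row 337, task C-Newman: Lee-Yang with real transverse tilts
-/

set_option autoImplicit false
set_option linter.unusedSectionVars false

namespace Crest.Agent.N337.C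
open Crest.Agent.N337.Slot Crest.Agent.N337.LY Matrix Finset

namespace Nw
section poly
open Polynomial

/-- the Euler operator -/
noncomputable def eu (Q : ℂ[X]) : ℂ[X] := X * derivative Q
lemma eu_mul (P R : ℂ[X]) : eu (P * R) = eu P * R + P * eu R := by
  simp only [eu, derivative_mul]; ring
lemma eu_add (P R : ℂ[X]) : eu (P + R) = eu P + eu R := by
  simp only [eu, derivative_add]; ring
lemma eu_sum (s : Finset ℕ) (c : ℕ → ℂ) :
    eu (∑ N ∈ s, monomial N (c N)) = ∑ N ∈ s, monomial N (c N * N) := by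
  rw [eu, derivative_sum, mul_sum]
  refine sum_congr rfl fun N _ => ?_
  cases N with
  | zero => simp
  | succ N => rw [derivative_monomial_succ, X_mul_monomial, Nat.cast_succ]

lemma one_fac {z θ : ℝ} (z0 : 0 < z) (h : 2 * θ * z ≤ 1 - z ^ 2) (θ0 : 0 < θ) {a : ℂ}
    (ha : ‖a‖ = 1) : θ * ((z : ℂ) / (z + a) - (z / (z + a)) ^ 2).re ≤ 1 / 2 - ((z : ℂ) / (z + a)).re := by
  have h1 : a.re ^ 2 + a.im ^ 2 = 1 := by
    have := Complex.sq_norm a
    rw [ha, Complex.normSq_apply] at this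
    linarith
  have h2 : a.re ≤ 1 := by nlinarith [sq_nonneg a.im]
  have h2' : -1 ≤ a.re := by nlinarith [sq_nonneg a.im]
  have z1 : z < 1 := by nlinarith [mul_pos θ0 z0]
  have hD : 0 < 1 + z ^ 2 + 2 * z * a.re := by nlinarith [mul_pos (sub_pos.2 z1) (sub_pos.2 z1)]
  have hN : Complex.normSq (z + a) = 1 + z ^ 2 + 2 * z * a.re := by
    simp only [Complex.normSq_apply, Complex.add_re, Complex.add_im, Complex.ofReal_re,
      Complex.ofReal_im]
    linarith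
  have e1 : ((z : ℂ) / (z + a)).re = z * (z + a.re) / (1 + z ^ 2 + 2 * z * a.re) := by
    rw [Complex.div_re, hN]; simp
  have e2 : ((z : ℂ) / (z + a)).im = -(z * a.im) / (1 + z ^ 2 + 2 * z * a.re) := by
    rw [Complex.div_im, hN]; simp [neg_div]
  rw [Complex.sub_re, sq (_ / _), Complex.mul_re, e1, e2, ← sub_nonneg]
  have h3 : 2 * θ * z * (a.re * (1 + z ^ 2) + 2 * z) ≤ (1 - z ^ 2) * (1 + z ^ 2 + 2 * z * a.re) := by
    rcases le_total 0 (a.re * (1 + z ^ 2) + 2 * z) with h4 | h4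
    · refine (mul_le_mul_of_nonneg_right h h4).trans (mul_le_mul_of_nonneg_left ?_ (by nlinarith))
      nlinarith [mul_nonneg (sub_nonneg.2 h2) (sq_nonneg (1 - z))]
    · exact (mul_nonpos_of_nonneg_of_nonpos (by positivity) h4).trans
        (mul_nonneg (by nlinarith) hD.le)
  refine le_of_le_of_eq (div_nonneg (sub_nonneg.2 h3)
    (show 0 ≤ 2 * (1 + z ^ 2 + 2 * z * a.re) ^ 2 by positivity)) ?_
  have h4 := hD.ne'
  generalize hE : 1 + z ^ 2 + 2 * z * a.re = D at h4 ⊢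
  field_simp
  rw [show a.im ^ 2 = 1 - a.re ^ 2 by linarith, ← hE]
  ring

lemma circle {z θ : ℝ} (z0 : 0 < z) (h : 2 * θ * z ≤ 1 - z ^ 2) (θ0 : 0 < θ) (Q : ℂ[X])
    (hQ : ∀ w : ℂ, ‖w‖ ≠ 1 → Q.eval w ≠ 0) :
    θ * ((eu (eu Q)).eval (z : ℂ) / Q.eval (z : ℂ) - ((eu Q).eval (z : ℂ) / Q.eval (z : ℂ)) ^ 2).re ≤
      Q.natDegree / 2 - ((eu Q).eval (z : ℂ) / Q.eval (z : ℂ)).re := by
  have z1 : ‖(z : ℂ)‖ ≠ 1 := by
    rw [Complex.norm_real, Real.norm_of_nonneg z0.le]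
    nlinarith [mul_pos θ0 z0]
  refine poly_ind (fun w => ‖w‖ ≠ 1) (fun Q => θ * ((eu (eu Q)).eval (z : ℂ) / Q.eval (z : ℂ) -
    ((eu Q).eval (z : ℂ) / Q.eval (z : ℂ)) ^ 2).re ≤
      Q.natDegree / 2 - ((eu Q).eval (z : ℂ) / Q.eval (z : ℂ)).re) ?_ ?_ ?_ Q hQ
  · intro c; simp [eu]
  · intro a ha
    simpa [eu] using one_fac z0 h θ0 (a := a) (by simpa using ha)
  · intro P R hP hR ihP ihR
    have hP0 := hP _ z1
    have hR0 := hR _ z1
    have e1 : (eu (P * R)).eval (z : ℂ) / (P * R).eval (z : ℂ) =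
        (eu P).eval (z : ℂ) / P.eval (z : ℂ) + (eu R).eval (z : ℂ) / R.eval (z : ℂ) := by
      simp only [eu_mul, eval_add, eval_mul]; field_simp
    have e2 : (eu (eu (P * R))).eval (z : ℂ) / (P * R).eval (z : ℂ) -
        ((eu P).eval (z : ℂ) / P.eval (z : ℂ) + (eu R).eval (z : ℂ) / R.eval (z : ℂ)) ^ 2 =
        ((eu (eu P)).eval (z : ℂ) / P.eval (z : ℂ) - ((eu P).eval (z : ℂ) / P.eval (z : ℂ)) ^ 2) +
        ((eu (eu R)).eval (z : ℂ) / R.eval (z : ℂ) -
          ((eu R).eval (z : ℂ) / R.eval (z : ℂ)) ^ 2) := by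
      simp only [eu_mul, eu_add, eval_add, eval_mul]; field_simp; ring
    rw [e1, e2, natDegree_mul (fun h => hP0 (by simp [h])) (fun h => hR0 (by simp [h])),
      Complex.add_re, Complex.add_re, Nat.cast_add]
    linarith

/-- the sharp form of Newman's inequality from the circle theorem -/
lemma sharp {ν : ℕ → ℝ} {n : ℕ} (hs : ∀ N, N ≤ n → ν (n - N) = ν N)
    (h : ∀ w : ℂ, ‖w‖ < 1 → ∑ N ∈ range (n + 1), (ν N : ℂ) * w ^ N ≠ 0) {θ : ℝ} (θ0 : 0 < θ) :
    θ * (mo ν n 0 θ * mo ν n 2 θ - mo ν n 1 θ ^ 2) ≤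
      n / 2 * mo ν n 0 θ ^ 2 - mo ν n 1 θ * mo ν n 0 θ := by
  have ev : ∀ (c : ℕ → ℂ) (w : ℂ), (∑ N ∈ range (n + 1), monomial N (c N)).eval w =
      ∑ N ∈ range (n + 1), c N * w ^ N := fun c w => by simp only [eval_finsetSum, eval_monomial]
  have hQ : ∀ w : ℂ, ‖w‖ ≠ 1 → (∑ N ∈ range (n + 1), monomial N (ν N : ℂ)).eval w ≠ 0 := by
    intro w hw
    rw [ev]
    rcases hw.lt_or_gt with h1 | h1
    · exact h w h1
    have w0 : w ≠ 0 := norm_pos_iff.1 (one_pos.trans h1)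
    have : ∑ N ∈ range (n + 1), (ν N : ℂ) * w ^ N =
        w ^ n * ∑ N ∈ range (n + 1), (ν N : ℂ) * w⁻¹ ^ N := by
      rw [← sum_flip, mul_sum]
      refine sum_congr rfl fun N hN => ?_
      have h2 := Nat.lt_succ_iff.1 (mem_range.1 hN)
      rw [hs N h2, pow_sub₀ _ w0 h2, inv_pow, mul_left_comm]
    rw [this]
    exact mul_ne_zero (pow_ne_zero _ w0) (h _ (by rw [norm_inv]; exact inv_lt_one_of_one_lt₀ h1))
  have hz : 2 * θ * Real.exp (-θ) ≤ 1 - Real.exp (-θ) ^ 2 := by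
    have h1 := mul_le_mul_of_nonneg_right (Real.self_le_sinh_iff.2 θ0.le) (Real.exp_pos (-θ)).le
    rw [Real.sinh_eq, div_mul_eq_mul_div, sub_mul, ← Real.exp_add, add_neg_cancel,
      Real.exp_zero] at h1
    linarith
  have h1 := circle (Real.exp_pos (-θ)) hz θ0 _ hQ
  have h2 := hQ (Real.exp (-θ)) (by
    rw [Complex.norm_real, Real.norm_of_nonneg (Real.exp_pos _).le]
    exact (Real.exp_lt_one_iff.2 (neg_lt_zero.2 θ0)).ne)
  have h3 : ((∑ N ∈ range (n + 1), monomial N (ν N : ℂ)).natDegree : ℝ) ≤ n :=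
    Nat.cast_le.2 (natDegree_sum_le_of_forall_le _ _ fun N hN =>
      (natDegree_monomial_le _).trans (Nat.lt_succ_iff.1 (mem_range.1 hN)))
  have e : ∀ k : ℕ, ∑ N ∈ range (n + 1), (ν N : ℂ) * (N : ℂ) ^ k * (Real.exp (-θ) : ℝ) ^ N =
      (mo ν n k θ : ℝ) := fun k => by
    rw [mo, Complex.ofReal_sum]
    refine sum_congr rfl fun N _ => ?_
    rw [show -(θ * N) = N * -θ by ring, Real.exp_nat_mul]
    simp only [Complex.ofReal_mul, Complex.ofReal_pow, Complex.ofReal_natCast]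
  have e0 := e 0
  have e1 := e 1
  have e2 := e 2
  simp only [pow_zero, mul_one, pow_one, sq, ← mul_assoc] at e0 e1 e2
  rw [ev, e0, Complex.ofReal_ne_zero] at h2
  rw [eu_sum, eu_sum, ev, ev, ev, e0, e1, e2, ← Complex.ofReal_div, ← Complex.ofReal_div,
    ← Complex.ofReal_pow, ← Complex.ofReal_sub, Complex.ofReal_re, Complex.ofReal_re] at h1
  have h4 := mul_le_mul_of_nonneg_right (h1.trans (sub_le_sub_right
    (div_le_div_of_nonneg_right h3 zero_le_two) _)) (sq_nonneg (mo ν n 0 θ))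
  refine le_of_eq_of_le ?_ (h4.trans_eq ?_) <;> field_simp
end poly

variable {Λ : Type} [Fintype Λ] [DecidableEq Λ]

/-- the tilt -/
noncomputable abbrev Ot (φ : Λ → ℝ) : BOp Λ := diagonal fun σ => Real.exp (mz φ σ)
/-- the rotated fugacity -/
def Tt (Λ : Type) [Fintype Λ] (τ : ℂ) : COp Λ := tc fun _ i j => if i = j then 1 else τ

lemma pres_Tt {τ : ℂ} (hτ : 0 < τ.re) : Pres (Tt Λ τ) := by
  refine pres_of_map fun v hv => ?_
  have h1 : ∀ x, 0 < (v x + τ).re * (1 + τ * v x).re + (v x + τ).im * (1 + τ * v x).im := fun x => by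
    have := hv x
    have e : (v x + τ).re * (1 + τ * v x).re + (v x + τ).im * (1 + τ * v x).im =
        (v x).re * (1 + τ.re ^ 2 + τ.im ^ 2) + τ.re * (1 + (v x).re ^ 2 + (v x).im ^ 2) := by
      simp; ring
    rw [e]; positivity
  have h2 : ∀ x, 1 + τ * v x ≠ 0 := fun x h => by simpa [h] using h1 x
  refine ⟨∏ x, (1 + τ * v x), fun x => (v x + τ) / (1 + τ * v x),
    prod_ne_zero_iff.2 fun x _ => h2 x, fun x => ?_, ?_⟩
  · rw [Complex.div_re, ← add_div]
    exact div_pos (h1 x) (Complex.normSq_pos.2 (h2 x))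
  · refine (tc_mulVec (fun _ i j => if i = j then 1 else τ)
      fun x j => if j = true then v x else 1).trans (funext fun σ => ?_)
    simp only [Pi.smul_apply, smul_eq_mul, ket, ← prod_mul_distrib]
    refine prod_congr rfl fun x _ => ?_
    cases σ x
    · simp [add_comm]
    · simp [mul_div_cancel₀ _ (h2 x)]

lemma pres_Ot (φ : Λ → ℝ) : Pres (cm (Ot φ)) := by
  refine pres_of_map fun v hv => ⟨∏ x, (Real.exp (φ x / 2) : ℝ), fun x => Real.exp (-φ x) * v x,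
    prod_ne_zero_iff.2 fun x _ => Complex.ofReal_ne_zero.2 (Real.exp_pos _).ne',
    fun x => by rw [Complex.re_ofReal_mul]; exact mul_pos (Real.exp_pos _) (hv x),
    funext fun σ => ?_⟩
  rw [RingHom.mapMatrix_apply, diagonal_map (map_zero _), mulVec_diagonal]
  simp only [Pi.smul_apply, smul_eq_mul, ket, mz, Real.exp_sum, map_prod, ← prod_mul_distrib,
    Complex.ofRealHom_eq_coe]
  refine prod_congr rfl fun x _ => ?_
  cases σ x
  · simp [div_eq_mul_inv]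
  · rw [if_pos rfl, if_pos rfl, if_pos rfl, ← mul_assoc, ← Complex.ofReal_mul, ← Real.exp_add]
    congr 3
    ring

lemma tc_mul (A B : Λ → Bool → Bool → ℂ) :
    tc A * tc B = tc fun x i j => ∑ k, A x i k * B x k j := by
  ext σ τ
  simp only [tc, mul_apply, of_apply]
  rw [prod_univ_sum]
  simp only [Fintype.piFinset_univ, prod_mul_distrib]

lemma Dg_eq (w : ℂ) : (Dg w : COp Λ) = tc fun _ i j => if i = j then (if i = true then w else 1) else 0 := by
  ext σ τ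
  by_cases h : σ = τ
  · subst h; simp [tc, Dg, pow_cnt]
  · obtain ⟨x, hx⟩ := Function.ne_iff.1 h
    rw [Dg, diagonal_apply_ne _ h]
    exact (prod_eq_zero (mem_univ x) (by simp [hx])).symm

lemma Hd_Dg {w : ℂ} (hw : 1 + w ≠ 0) : cm (Hd Λ) * Dg w * cm (Hd Λ) =
    (∏ _x : Λ, (1 + w) / 2) • Tt Λ ((1 - w) / (1 + w)) := by
  rw [Hd, cm_tens, Dg_eq, tc_mul, tc_mul]
  ext σ τ
  simp only [tc, Tt, of_apply, Matrix.smul_apply, smul_eq_mul, ← prod_mul_distrib]
  refine prod_congr rfl fun x _ => ?_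
  have h : ((Real.sqrt 2 : ℝ) : ℂ) ^ 2 = 2 := by
    rw [← Complex.ofReal_pow, Real.sq_sqrt zero_le_two]; rfl
  have h0 : ((Real.sqrt 2 : ℝ) : ℂ) ≠ 0 := fun h0 => by simp [h0] at h
  cases σ x <;> cases τ x <;> simp <;> field_simp <;> rw [h] <;> ring

lemma sum_sec (w : ℂ) : ∑ N ∈ range (Fintype.card Λ + 1), w ^ N • cm (sec N : BOp Λ) = Dg w := by
  ext σ τ
  rw [Matrix.sum_apply]
  by_cases h : σ = τ
  · subst h
    simp [sec, Dg, cnt_le, apply_ite]
  · simp [sec, Dg, h]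

/-- the tilted weights -/
noncomputable def nu (φ : Λ → ℝ) (W : BOp Λ) (N : ℕ) : ℝ := (Hd Λ * (sec N * W) * Hd Λ * Ot φ).trace

lemma no_zero {W : BOp Λ} (hW : W ∈ Adm0 Λ) (φ : Λ → ℝ) {w : ℂ} (hw : ‖w‖ < 1) :
    ∑ N ∈ range (Fintype.card Λ + 1), (nu φ W N : ℂ) * w ^ N ≠ 0 := by
  have h1 : 1 + w ≠ 0 := fun h => by
    rw [eq_neg_of_add_eq_zero_right h] at hw; simp at hw
  have hc := comm_adm0 (X := Hd Λ) comm_Hd_swp (subset_closure hW)
  have e : ∑ N ∈ range (Fintype.card Λ + 1), (nu φ W N : ℂ) * w ^ N =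
      (cm (Hd Λ) * Dg w * cm (Hd Λ) * cm W * cm (Ot φ)).trace := by
    rw [← sum_sec, mul_sum, sum_mul, sum_mul, sum_mul, trace_sum]
    refine sum_congr rfl fun N _ => ?_
    rw [Matrix.mul_smul, Matrix.smul_mul, Matrix.smul_mul, Matrix.smul_mul, trace_smul, ← map_mul,
      ← map_mul, ← map_mul, ← map_mul, cm_trace, smul_eq_mul, mul_comm, nu,
      Matrix.mul_assoc _ (Hd Λ) W, hc.eq]
    simp only [Matrix.mul_assoc]
  rw [e, Hd_Dg h1, Matrix.smul_mul, Matrix.smul_mul, trace_smul, smul_eq_mul]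
  refine mul_ne_zero (prod_ne_zero_iff.2 fun _ _ => div_ne_zero h1 two_ne_zero)
    (trace_ne_of_family (f := fun τ => Tt Λ τ * cm W * cm (Ot φ))
      ((MP.mul (fun σ τ => IsP.prod fun x => ?_) (MP.const _)).mul (MP.const _))
      (fun s hs => ((pres_Tt hs).mul (pres_adm (adm0_le hW))).mul (pres_Ot φ)) ?_ ?_)
  · dsimp only
    split_ifs
    exacts [IsP.const _, ⟨Polynomial.X, fun _ => Polynomial.eval_X⟩]
  · have e0 : Tt Λ 0 = 1 := by rw [← map_one (cm (Λ := Λ)), ← tens_one, cm_tens]; simp [Tt, apply_ite]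
    rw [e0, Matrix.one_mul, ← map_mul, cm_trace, Complex.ofReal_ne_zero, tr_mul_diag]
    refine (sum_pos' (fun σ _ => mul_nonneg (adm_nn (adm0_le hW) σ σ) (Real.exp_pos _).le)
      ⟨fun _ => false, mem_univ _, ?_⟩).ne'
    rw [up_adm0 (subset_closure hW), one_apply_eq, one_mul]
    exact Real.exp_pos _
  · have h2 : w.re * w.re + w.im * w.im < 1 := by
      rw [← Complex.normSq_apply, ← Complex.sq_norm]
      exact pow_lt_one₀ (norm_nonneg _) hw two_ne_zero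
    rw [Complex.div_re, ← add_div]
    exact div_pos (by simp; linarith) (Complex.normSq_pos.2 h1)

lemma tr_conj {U : BOp Λ} (hU : U * U = 1) (X : BOp Λ) : (U * X * U).trace = X.trace := by
  rw [trace_mul_comm, ← Matrix.mul_assoc, hU, Matrix.one_mul]

lemma nu_symm {W : BOp Λ} (hW : W ∈ closure (Adm0 Λ : Set (BOp Λ))) (φ : Λ → ℝ) (N : ℕ)
    (hN : N ≤ Fintype.card Λ) : nu φ W (Fintype.card Λ - N) = nu φ W N := by
  have h1 : Ot φ * Sg Λ = Sg Λ * Ot φ := by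
    rw [Sg_eq, diagonal_mul_diagonal, diagonal_mul_diagonal]; simp only [mul_comm]
  have h2 : Fl Λ * W = W * Fl Λ := (comm_adm0 (X := Fl Λ) (comm_tens_swp _) hW).eq
  rw [nu, nu, ← tr_conj Sg_mul_Sg (Hd Λ * (sec N * W) * _ * _)]
  refine congrArg trace (Eq.symm ?_)
  calc _ = Sg Λ * Hd Λ * sec N * W * (Hd Λ * (Ot φ * Sg Λ)) := by simp only [Matrix.mul_assoc]
    _ = Hd Λ * (Fl Λ * sec N) * W * (Hd Λ * Sg Λ) * Ot φ := by
      rw [Sg_Hd, h1]; simp only [Matrix.mul_assoc]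
    _ = Hd Λ * sec (Fintype.card Λ - N) * (Fl Λ * W) * Fl Λ * Hd Λ * Ot φ := by
      rw [Fl_sec hN, Hd_Sg]; simp only [Matrix.mul_assoc]
    _ = Hd Λ * sec (Fintype.card Λ - N) * W * (Fl Λ * Fl Λ) * Hd Λ * Ot φ := by
      rw [h2]; simp only [Matrix.mul_assoc]
    _ = _ := by rw [Fl_mul_Fl]; simp only [Matrix.mul_assoc, Matrix.one_mul]

lemma mean_zero {ρ : BOp Λ} (h : Commute (Sg Λ) ρ) (φ : Λ → ℝ) : ∑ σ, dg ρ σ * mz φ σ = 0 := by
  have h1 : Fl Λ * diagonal (mz φ) = -(diagonal (mz φ) * Fl Λ) := by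
    ext σ τ
    simp only [mul_diagonal, diagonal_mul, Matrix.neg_apply, Fl_apply]
    split_ifs with h
    · subst h
      simp only [mz, one_mul, mul_one, ← sum_neg_distrib]
      exact sum_congr rfl fun x _ => by by_cases hx : σ x = true <;> simp [hx]
    · simp
  have h2 : Fl Λ * Hd Λ * ρ * Hd Λ = Hd Λ * ρ * Hd Λ * Fl Λ := by
    rw [← Hd_Sg, Matrix.mul_assoc _ _ ρ, h.eq, Matrix.mul_assoc _ _ (Fl Λ), ← Sg_Hd]
    simp only [Matrix.mul_assoc]
  have h3 := tr_conj Fl_mul_Fl (Hd Λ * ρ * Hd Λ * diagonal (mz φ))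
  rw [← Matrix.mul_assoc, ← Matrix.mul_assoc, ← Matrix.mul_assoc, h2, Matrix.mul_assoc _ (Fl Λ), h1,
    Matrix.mul_neg, Matrix.neg_mul, Matrix.mul_assoc, Matrix.mul_assoc _ (Fl Λ), Fl_mul_Fl,
    Matrix.mul_one, trace_neg] at h3
  rw [dg_sum]
  linarith
end Nw
open Nw

/-- **(Newman)** -/
theorem newman : NewmanStmt := by
  intro Λ _ _ W hW φ n ν
  have e : ν = nu φ W := funext fun N => dg_sum _ _
  refine ⟨e ▸ nu_symm hW.mem φ, fun N => mean_zero (Commute.mul_right (a := Sg Λ) ?_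
    (hW.comm (comm_tens_swp _))) φ, fun θ θ0 => ?_⟩
  · rw [Sg_eq]
    exact (diagonal_mul_diagonal _ _).trans ((congrArg _ (funext fun _ => mul_comm _ _)).trans
      (diagonal_mul_diagonal _ _).symm)
  have hc : ∀ k, Continuous fun M : BOp Λ => mo (nu φ M) n k θ := fun k =>
    continuous_finsetSum _ fun N _ => (((((continuous_const.matrix_mul
      (continuous_const.matrix_mul continuous_id)).matrix_mul continuous_const).matrix_mul
        continuous_const).matrix_trace).mul continuous_const).mul continuous_const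
  have h1 : W ∈ {M : BOp Λ | θ * (mo (nu φ M) n 0 θ * mo (nu φ M) n 2 θ - mo (nu φ M) n 1 θ ^ 2) ≤
      n / 2 * mo (nu φ M) n 0 θ ^ 2 - mo (nu φ M) n 1 θ * mo (nu φ M) n 0 θ} :=
    closure_minimal (fun M hM => sharp (nu_symm (subset_closure hM) φ)
    (fun w hw => no_zero hM φ hw) θ0) (isClosed_le
      (continuous_const.mul (((hc 0).mul (hc 2)).sub ((hc 1).pow 2)))
      ((continuous_const.mul ((hc 0).pow 2)).sub ((hc 1).mul (hc 0)))) hW.mem
  have h2 : ∀ k, 0 ≤ mo ν n k θ := fun k => sum_nonneg fun N _ => mul_nonneg (mul_nonneg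
    (sum_nonneg fun σ _ => mul_nonneg (by
      have := psd_conj (psd_mul (sec_psd N) hW.psd (hW.comm (comm_sec_swp N))) (Hd Λ)
      rw [Hd_transpose] at this
      exact this.diag_nonneg) (Real.exp_pos _).le) (by positivity)) (Real.exp_pos _).le
  rw [Set.mem_ofPred_eq, ← e] at h1
  exact le_trans h1 (sub_le_self _ (mul_nonneg (h2 1) (h2 0)))

end Crest.Agent.N337.C
end

-- ▼ part N337/C/Conc
section

/-!
# Row 337, S0527 closing: concentration of the blocks (helper17)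
-/

set_option autoImplicit false
set_option linter.unusedSectionVars false

namespace Crest.Agent.N337.C

open Crest.Agent.N337.Slot Crest.Agent.N337.Slot.SL Matrix

namespace Cn

variable {Λ : Type} [Fintype Λ] [DecidableEq Λ] {Z : Type} [Fintype Z] {a : Z → Λ → ℝ} {δ : ℝ}

/-- difference of two blocks -/
def bb (a : Z → Λ → ℝ) (z z' : Z) : Λ → ℝ := fun s => a z s - a z' s

theorem mz_bb (z z' : Z) (σ : Λ → Bool) : mz (bb a z z') σ = mz (a z) σ - mz (a z') σ := by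
  simp only [mz, bb, sub_mul, Finset.sum_sub_distrib]

/-- transverse part -/
def tr2 (b : Λ → ℝ) : BOp Λ := crF b * anF b + anF b * crF b

theorem tr2_psd (b : Λ → ℝ) : (tr2 b).PosSemidef := by
  have h1 := psd_tmul (anF b)
  have h2 := psd_tmul (crF b)
  rw [anF_transpose] at h1
  rw [crF_transpose] at h2
  exact h1.add h2

noncomputable def Qa (a : Z → Λ → ℝ) : BOp Λ :=
  (1 / (Fintype.card Z : ℝ) ^ 2) • ∑ z, ∑ z', tr2 (bb a z z')

noncomputable def be (a : Z → Λ → ℝ) : ℝ :=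
  (∑ z, ∑ z', ∑ s, bb a z z' s ^ 2) / (Fintype.card Z : ℝ) ^ 2

theorem Qa_psd (a : Z → Λ → ℝ) : (Qa a).PosSemidef :=
  (posSemidef_sum _ fun _ _ => posSemidef_sum _ fun _ _ => tr2_psd _).smul (by positivity)

theorem be_nonneg (a : Z → Λ → ℝ) : 0 ≤ be a := by unfold be; positivity

theorem avg_le [Nonempty Z] {F : Z → Z → ℝ} {c : ℝ} (h : ∀ z z', F z z' ≤ c) :
    (∑ z, ∑ z', F z z') / (Fintype.card Z : ℝ) ^ 2 ≤ c := by
  have hm : (0 : ℝ) < Fintype.card Z := Nat.cast_pos.2 Fintype.card_pos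
  rw [div_le_iff₀ (by positivity)]
  refine (Finset.sum_le_sum fun z _ => Finset.sum_le_sum fun z' _ => h z z').trans (le_of_eq ?_)
  simp only [Finset.sum_const, Finset.card_univ, nsmul_eq_mul]
  ring

theorem be_le [Nonempty Z] (h : Blocks a δ) : be a ≤ 2 * δ := by
  refine avg_le fun z z' => ?_
  have : ∑ s, bb a z z' s ^ 2 ≤ ∑ s, (a z s ^ 2 + a z' s ^ 2) :=
    Finset.sum_le_sum fun s _ => by
      unfold bb
      nlinarith [mul_nonneg (h.nonneg z s) (h.nonneg z' s)]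
  rw [Finset.sum_add_distrib] at this
  linarith [h.sq z, h.sq z']

theorem sum_a [Nonempty Z] (h : Blocks a δ) (s : Λ) :
    ∑ z, a z s = (Fintype.card Z : ℝ) * (1 / (Fintype.card Λ : ℝ)) := by
  have hm : (0 : ℝ) < Fintype.card Z := Nat.cast_pos.2 Fintype.card_pos
  rw [← h.unif s]
  field_simp

theorem avg_Sq [Nonempty Z] (h : Blocks a δ) :
    (1 / (Fintype.card Z : ℝ) ^ 2) • ∑ z, ∑ z', Sq (bb a z z') =
      (2 : ℝ) • avSq a - (2 : ℝ) • cas Λ := by
  have hm : (0 : ℝ) < Fintype.card Z := Nat.cast_pos.2 Fintype.card_pos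
  have e1 : ∑ z, ∑ z', Sq (bb a z z') =
      ∑ s, ∑ s', (∑ z, ∑ z', bb a z z' s * bb a z z' s') • swp s s' := by
    simp only [Sq, Finset.sum_smul]
    rw [Finset.sum_congr rfl fun z _ => Finset.sum_comm, Finset.sum_comm]
    refine Finset.sum_congr rfl fun s _ => ?_
    rw [Finset.sum_congr rfl fun z _ => Finset.sum_comm, Finset.sum_comm]
  have e2 : ∑ z, Sq (a z) = ∑ s, ∑ s', (∑ z, a z s * a z s') • swp s s' := by
    simp only [Sq, Finset.sum_smul]
    rw [Finset.sum_comm]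
    exact Finset.sum_congr rfl fun s _ => Finset.sum_comm
  rw [e1, avSq, e2, cas, Sq]
  simp only [Finset.smul_sum, smul_smul, ← Finset.sum_sub_distrib, ← sub_smul]
  refine Finset.sum_congr rfl fun s _ => Finset.sum_congr rfl fun s' _ => ?_
  congr 1
  have e3 : ∑ z, ∑ z', bb a z z' s * bb a z z' s' =
      2 * (Fintype.card Z : ℝ) * ∑ z, a z s * a z s' - 2 * ((∑ z, a z s) * ∑ z, a z s') := by
    have : ∀ z z', bb a z z' s * bb a z z' s' =
        a z s * a z s' + a z' s * a z' s' - a z s * a z' s' - a z' s * a z s' := fun z z' => by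
      unfold bb; ring
    simp only [this, Finset.sum_sub_distrib, Finset.sum_add_distrib, Finset.sum_const,
      Finset.card_univ, nsmul_eq_mul, ← Finset.mul_sum, ← Finset.sum_mul]
    ring
  rw [e3, sum_a h, sum_a h]
  field_simp

/-- the averaged (DOT) identity -/
theorem avg_dot [Nonempty Z] (h : Blocks a δ) :
    (2 : ℝ) • avSq a - (2 : ℝ) • cas Λ =
      (2 : ℝ) • diagonal (Yv fun z => mz (a z)) + Qa a - be a • (1 : BOp Λ) := by
  have e : ∀ z z', Sq (bb a z z') = (2 : ℝ) • diagonal (fun σ => mz (bb a z z') σ ^ 2) +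
      tr2 (bb a z z') - (∑ s, bb a z z' s ^ 2) • (1 : BOp Λ) := fun z z' => by
    have : ∑ s, bb a z z' s = 0 := by
      simp only [bb, Finset.sum_sub_distrib, h.sum, sub_self]
    rw [Sq_eq, this, tr2]
    module
  have e2 : diagonal (Yv fun z => mz (a z)) = (1 / (Fintype.card Z : ℝ) ^ 2) •
      ∑ z, ∑ z', diagonal fun σ => mz (bb a z z') σ ^ 2 := by
    ext σ τ
    by_cases hs : σ = τ
    · subst hs
      simp only [Matrix.smul_apply, Matrix.sum_apply, diagonal_apply_eq, Yv, mz_bb, smul_eq_mul]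
      ring
    · simp [Matrix.sum_apply, hs]
  rw [← avg_Sq h, e2, Qa, be]
  simp only [e, Finset.sum_sub_distrib, Finset.sum_add_distrib, ← Finset.smul_sum,
    ← Finset.sum_smul]
  module

theorem one_sub_avSq_psd [Nonempty Z] (h : Blocks a δ) : (1 - avSq a).PosSemidef := by
  have hm : (0 : ℝ) < Fintype.card Z := Nat.cast_pos.2 Fintype.card_pos
  have e : 1 - avSq a = (1 / (Fintype.card Z : ℝ)) • ∑ z, (1 - Sq (a z)) := by
    rw [Finset.sum_sub_distrib, smul_sub, avSq, Finset.sum_const, Finset.card_univ,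
      ← Nat.cast_smul_eq_nsmul ℝ, smul_smul, one_div_mul_cancel hm.ne', one_smul]
  rw [e]
  exact (posSemidef_sum _ fun z _ => one_sub_Sq_psd (h.nonneg z) (h.sum z)).smul (by positivity)

theorem op_psd [Nonempty Z] (h : Blocks a δ) {θ d : ℝ} (hd : δ + 1 - θ ≤ d) :
    ((θ • (1 : BOp Λ) - cas Λ) - diagonal fun σ => (Yv fun z => mz (a z)) σ - d).PosSemidef := by
  have e0 : (diagonal fun σ => (Yv fun z => mz (a z)) σ - d) =
      diagonal (Yv fun z => mz (a z)) - d • (1 : BOp Λ) := by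
    ext σ τ
    by_cases hs : σ = τ
    · subst hs; simp
    · simp [hs]
  have e : (θ • (1 : BOp Λ) - cas Λ) - (diagonal (Yv fun z => mz (a z)) - d • (1 : BOp Λ)) =
      (1 - avSq a) + (1 / 2 : ℝ) • Qa a + (θ + d - 1 - be a / 2) • (1 : BOp Λ) := by
    linear_combination (norm := module) (1 / 2 : ℝ) • avg_dot h
  rw [e0, e]
  exact ((one_sub_avSq_psd h).add ((Qa_psd a).smul (by norm_num))).add
    (PosSemidef.one.smul (by linarith [be_le h]))

theorem abs_mz_bb (h : Blocks a δ) (z z' : Z) (σ : Λ → Bool) : |mz (a z) σ - mz (a z') σ| ≤ 1 := by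
  have h1 := abs_le.1 (abs_mz_le (h.nonneg z) (h.sum z) σ)
  have h2 := abs_le.1 (abs_mz_le (h.nonneg z') (h.sum z') σ)
  rw [abs_le]
  constructor <;> linarith [h1.1, h1.2, h2.1, h2.2]

theorem Y_le [Nonempty Z] (h : Blocks a δ) (σ : Λ → Bool) : (Yv fun z => mz (a z)) σ ≤ 1 :=
  avg_le fun z z' => (sq_le_one_iff_abs_le_one _).2 (abs_mz_bb h z z' σ)

theorem mz_swap {b : Λ → ℝ} (hb : ∀ s, 0 ≤ b s) (s s' : Λ) (σ : Λ → Bool) :
    |mz b (σ ∘ Equiv.swap s s') - mz b σ| ≤ b s + b s' := by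
  rw [mz, mz, ← Finset.sum_sub_distrib]
  refine (Finset.abs_sum_le_sum_abs _ _).trans ?_
  have e : b s + b s' = ∑ u, ((if u = s then b u else 0) + if u = s' then b u else 0) := by
    simp [Finset.sum_add_distrib]
  rw [e]
  refine Finset.sum_le_sum fun u _ => ?_
  rw [← mul_sub, abs_mul, abs_of_nonneg (hb u)]
  have h1 : |(if (σ ∘ Equiv.swap s s') u = true then -(1 / 2) else 1 / 2 : ℝ) -
      if σ u = true then -(1 / 2) else 1 / 2| ≤ 1 := by
    split_ifs <;> norm_num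
  have h2 := mul_le_of_le_one_right (hb u) h1
  by_cases hs : u = s
  · rw [if_pos hs]
    refine h2.trans (le_add_of_nonneg_right ?_)
    split_ifs
    exacts [hb u, le_rfl]
  · by_cases hs' : u = s'
    · rw [if_neg hs, if_pos hs', zero_add]; exact h2
    · simp [hs, hs', Equiv.swap_apply_of_ne_of_ne hs hs']

theorem Y_swap [Nonempty Z] (h : Blocks a δ) (s s' : Λ) (σ : Λ → Bool) :
    |(Yv fun z => mz (a z)) (σ ∘ Equiv.swap s s') - (Yv fun z => mz (a z)) σ| ≤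
      8 / (Fintype.card Λ : ℝ) := by
  have hm : (0 : ℝ) < Fintype.card Z := Nat.cast_pos.2 Fintype.card_pos
  simp only [Yv]
  rw [← sub_div, abs_div, abs_of_pos (by positivity : (0 : ℝ) < (Fintype.card Z : ℝ) ^ 2),
    div_le_iff₀ (by positivity), ← Finset.sum_sub_distrib]
  refine (Finset.abs_sum_le_sum_abs _ _).trans ?_
  have key : ∀ z, |∑ z', (mz (a z) (σ ∘ Equiv.swap s s') - mz (a z') (σ ∘ Equiv.swap s s')) ^ 2 -
      ∑ z', (mz (a z) σ - mz (a z') σ) ^ 2| ≤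
      ∑ z', 2 * ((a z s + a z s') + (a z' s + a z' s')) := fun z => by
    rw [← Finset.sum_sub_distrib]
    refine (Finset.abs_sum_le_sum_abs _ _).trans (Finset.sum_le_sum fun z' _ => ?_)
    have h1 := abs_mz_bb h z z' (σ ∘ Equiv.swap s s')
    have h2 := abs_mz_bb h z z' σ
    have h3 := mz_swap (h.nonneg z) s s' σ
    have h4 := mz_swap (h.nonneg z') s s' σ
    rw [sq_sub_sq, abs_mul]
    refine mul_le_mul ((abs_add_le _ _).trans (by linarith)) ?_ (abs_nonneg _) (by norm_num)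
    rw [abs_le] at h3 h4 ⊢
    constructor <;> linarith [h3.1, h3.2, h4.1, h4.2]
  refine (Finset.sum_le_sum fun z _ => key z).trans (le_of_eq ?_)
  simp only [← Finset.mul_sum, Finset.sum_add_distrib, Finset.sum_const, Finset.card_univ,
    nsmul_eq_mul, sum_a h]
  ring

theorem tr_swp_diag {ρ : BOp Λ} (hρ : ρ.PosSemidef) (s s' : Λ) {g : (Λ → Bool) → ℝ} {c : ℝ}
    (hc : 0 < c) (hg : ∀ σ, |g σ| ≤ c) : (ρ * (swp s s' * diagonal g)).trace ≤ c * ρ.trace := by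
  have h := tr_cs hρ (diagonal fun σ => g σ / c) (swp s s')
  have e1 : ((swp s s')ᵀ * ρ * swp s s').trace = ρ.trace := by
    rw [trace_mul_cycle, swp_transpose, swp_mul_self, Matrix.one_mul]
  have e2 : ((diagonal fun σ => g σ / c)ᵀ * ρ * diagonal fun σ => g σ / c).trace ≤ ρ.trace := by
    rw [trace_mul_cycle, diagonal_transpose, diagonal_mul_diagonal, trace_mul_comm, tr_mul_diag]
    refine Finset.sum_le_sum fun σ _ => mul_le_of_le_one_right hρ.diag_nonneg ?_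
    rw [← sq, sq_le_one_iff_abs_le_one, abs_div, abs_of_pos hc, div_le_one hc]
    exact hg σ
  have e3 : diagonal g = c • diagonal fun σ => g σ / c := by
    rw [← diagonal_smul]
    congr 1
    funext σ
    simp only [Pi.smul_apply, smul_eq_mul]
    field_simp
  rw [e3, Matrix.mul_smul, Matrix.mul_smul, trace_smul, smul_eq_mul, ← Matrix.mul_assoc,
    trace_mul_cycle]
  rw [diagonal_transpose] at h e2
  exact mul_le_mul_of_nonneg_left (by linarith) hc.le

theorem tr_cas [Nonempty Λ] {ρ : BOp Λ} (hρ : ρ.PosSemidef) {φ : (Λ → Bool) → ℝ} {c : ℝ}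
    (hc : 0 < c) (h1 : ∀ σ, |φ σ| ≤ 1)
    (h2 : ∀ s s' σ, |φ (σ ∘ Equiv.swap s s') - φ σ| ≤ c) :
    (ρ * (cas Λ * diagonal φ * diagonal φ)).trace ≤
      (ρ * (diagonal φ * cas Λ * diagonal φ)).trace + c * ρ.trace := by
  have hn : (0 : ℝ) < Fintype.card Λ := Nat.cast_pos.2 Fintype.card_pos
  have e : ∀ s s' : Λ, swp s s' * diagonal φ * diagonal φ = diagonal φ * swp s s' * diagonal φ +
      swp s s' * diagonal fun σ => (φ σ - φ (σ ∘ Equiv.swap s s')) * φ σ := fun s s' => by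
    have e1 := swp_mul_diag s s' fun σ => φ (σ ∘ Equiv.swap s s')
    have e2 : (fun σ : Λ → Bool => φ ((σ ∘ Equiv.swap s s') ∘ Equiv.swap s s')) = φ := by
      funext σ; congr 1; funext u; simp
    rw [e2] at e1
    rw [← e1, Matrix.mul_assoc, Matrix.mul_assoc, ← Matrix.mul_add, diagonal_mul_diagonal,
      diagonal_mul_diagonal, diagonal_add]
    congr 2
    funext σ
    ring
  have hb : ∀ s s' : Λ, (ρ * (swp s s' * diagonal φ * diagonal φ)).trace ≤
      (ρ * (diagonal φ * swp s s' * diagonal φ)).trace + c * ρ.trace := fun s s' => by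
    rw [e, Matrix.mul_add, trace_add]
    refine add_le_add le_rfl (tr_swp_diag hρ s s' hc fun σ => ?_)
    rw [abs_mul, abs_sub_comm]
    exact (mul_le_of_le_one_right (abs_nonneg _) (h1 σ)).trans (h2 s s' σ)
  have e4 : c * ρ.trace = ∑ _s : Λ, ∑ _s' : Λ,
      1 / (Fintype.card Λ : ℝ) * (1 / (Fintype.card Λ : ℝ)) * (c * ρ.trace) := by
    simp only [Finset.sum_const, Finset.card_univ, nsmul_eq_mul]
    field_simp
  rw [e4]
  simp only [cas, Sq, Finset.sum_mul, Finset.mul_sum, Matrix.smul_mul, Matrix.mul_smul, trace_sum,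
    trace_smul, smul_eq_mul, ← Finset.sum_add_distrib, ← mul_add]
  exact Finset.sum_le_sum fun s _ => Finset.sum_le_sum fun s' _ =>
    mul_le_mul_of_nonneg_left (hb s s') (by positivity)

theorem cnt_update {η : Λ → Bool} {u : Λ} (h : η u = true) :
    cnt η = cnt (Function.update η u false) + 1 := by
  unfold cnt
  have : (Finset.univ.filter fun x => η x = true) =
      insert u (Finset.univ.filter fun x => Function.update η u false x = true) := by
    ext x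
    by_cases hx : x = u
    · subst hx; simp [h]
    · simp [hx]
  rw [this, Finset.card_insert_of_notMem (by simp)]

theorem num_crF (b : Λ → ℝ) : (diagonal fun σ : Λ → Bool => (cnt σ : ℝ)) * crF b =
    crF b * (diagonal fun σ : Λ → Bool => (cnt σ : ℝ)) + crF b := by
  have h : ∀ u : Λ, (diagonal fun σ : Λ → Bool => (cnt σ : ℝ)) * cr u =
      cr u * (diagonal fun σ : Λ → Bool => (cnt σ : ℝ)) + cr u := fun u => by
    ext η τ
    have e := cr_mul_apply u (1 : BOp Λ) η τ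
    rw [Matrix.mul_one] at e
    rw [Matrix.add_apply, diagonal_mul, mul_diagonal, e]
    split_ifs with hu
    · by_cases ht : Function.update η u false = τ
      · rw [cnt_update hu, ← ht]; simp
      · simp [ht]
    · simp
  simp only [crF, Finset.mul_sum, Finset.sum_mul, Matrix.mul_smul, Matrix.smul_mul, h, smul_add,
    Finset.sum_add_distrib]

theorem tr_tr2 {R : BOp Λ} (hs : Rᵀ = R) (hH : Commute (Hd Λ) R)
    (hN : Commute (diagonal fun σ : Λ → Bool => (cnt σ : ℝ)) R) (b : Λ → ℝ) :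
    (R * tr2 b).trace = 4 * (R * diagonal fun σ => mz b σ ^ 2).trace := by
  set N : BOp Λ := diagonal fun σ : Λ → Bool => (cnt σ : ℝ)
  have h1 : (R * (crF b * crF b)).trace = 0 := by
    have e : N * (crF b * crF b) = crF b * crF b * N + (2 : ℝ) • (crF b * crF b) := by
      rw [← Matrix.mul_assoc, num_crF, Matrix.add_mul, Matrix.mul_assoc, num_crF, Matrix.mul_add,
        Matrix.mul_assoc]
      module
    have e2 : (R * (N * (crF b * crF b))).trace = (R * (crF b * crF b * N)).trace := by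
      rw [← Matrix.mul_assoc, ← hN.eq, Matrix.mul_assoc, trace_mul_comm, Matrix.mul_assoc]
    rw [e, Matrix.mul_add, trace_add, Matrix.mul_smul, trace_smul, smul_eq_mul] at e2
    linarith
  have h2 : (R * (anF b * anF b)).trace = 0 := by
    rw [← trace_transpose, transpose_mul, transpose_mul, anF_transpose, hs, trace_mul_comm, h1]
  have h3 : (R * diagonal fun σ => mz b σ ^ 2).trace =
      (R * ((1 / 2 : ℝ) • (crF b + anF b) * (1 / 2 : ℝ) • (crF b + anF b))).trace := by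
    have e : diagonal (fun σ => mz b σ ^ 2) = diagonal (mz b) * diagonal (mz b) := by
      rw [diagonal_mul_diagonal]; simp only [sq]
    have e2 : (1 / 2 : ℝ) • (crF b + anF b) * (1 / 2 : ℝ) • (crF b + anF b) =
        Hd Λ * (diagonal (mz b) * diagonal (mz b)) * Hd Λ := by
      rw [← Matrix.mul_assoc (Hd Λ), Hd_mz, Matrix.mul_assoc _ (Hd Λ), Hd_mz, Matrix.mul_assoc,
        Matrix.mul_assoc, Hd_mul_Hd, Matrix.mul_one]
    rw [e, e2, ← Matrix.mul_assoc R (_ * _) (Hd Λ), ← Matrix.mul_assoc R (Hd Λ), ← hH.eq,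
      trace_mul_cycle (Hd Λ * R), ← Matrix.mul_assoc (Hd Λ), Hd_mul_Hd, Matrix.one_mul]
  rw [h3, tr2]
  simp only [Matrix.smul_mul, Matrix.mul_smul, Matrix.add_mul, Matrix.mul_add, trace_smul,
    trace_add, h1, h2, smul_eq_mul]
  ring

theorem tr_Qa {R : BOp Λ} (hs : Rᵀ = R) (hH : Commute (Hd Λ) R)
    (hN : Commute (diagonal fun σ : Λ → Bool => (cnt σ : ℝ)) R) (a : Z → Λ → ℝ) :
    (R * Qa a).trace = 4 * ∑ σ, R σ σ * (Yv fun z => mz (a z)) σ := by
  simp only [Qa, Matrix.mul_smul, Finset.mul_sum, trace_smul, trace_sum, tr_tr2 hs hH hN,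
    tr_mul_diag, smul_eq_mul, Yv, mz_bb, Finset.sum_div]
  rw [Finset.sum_comm (γ := Λ → Bool)]
  refine Finset.sum_congr rfl fun z _ => ?_
  rw [Finset.sum_comm (γ := Λ → Bool)]
  refine Finset.sum_congr rfl fun z' _ => Finset.sum_congr rfl fun σ _ => ?_
  ring

end Cn

open Cn in
theorem conc (hK : KeyStmt) : ConcStmt := by
  intro Λ _ _ _ W hW Z _ _ a δ θ h hθ Y
  obtain ⟨l1, l2, l3, l4, l5⟩ := (hK Λ).1 θ
  have hn : (0 : ℝ) < Fintype.card Λ := Nat.cast_pos.2 Fintype.card_pos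
  have cW : Commute (cas Λ) W := hW.comm comm_cas_swp
  have cH : Commute (cas Λ) (Hd Λ) := (comm_Sq comm_Hd_swp _).symm
  have cS : ∀ N, Commute (cas Λ) (sec N) := fun N => (comm_Sq (comm_sec_swp N) _).symm
  have hρ : ∀ N, (Hd Λ * (sec N * W) * Hd Λ).PosSemidef := fun N => by
    have := psd_conj (psd_mul (sec_psd N) hW.psd (hW.comm (comm_sec_swp N))) (Hd Λ)
    rwa [Hd_transpose] at this
  have trρ : ∀ N, (Hd Λ * (sec N * W) * Hd Λ).trace = Zs W N := fun N => by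
    rw [trace_mul_cycle, Hd_mul_Hd, Matrix.one_mul, Zs]
  have hrb : (lt Λ θ * W).PosSemidef := psd_mul l1 hW.psd (l3 _ cW)
  refine ⟨fun N d hd => ?_, fun N σ => (hρ N).diag_nonneg, fun N => trρ N, fun σ =>
    ⟨hrb.diag_nonneg, ?_⟩, ?_⟩
  · set ρ := Hd Λ * (sec N * W) * Hd Λ with hρe
    have cρ : Commute (cas Λ) ρ := (cH.mul_right ((cS N).mul_right cW)).mul_right cH
    have hδ : 0 ≤ δ := (Finset.sum_nonneg fun s _ => sq_nonneg _).trans
      (h.sq (Classical.arbitrary Z))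
    set φ : (Λ → Bool) → ℝ := fun σ => max (Y σ - d) 0 with hφ
    have φ1 : ∀ σ, |φ σ| ≤ 1 := fun σ => by
      rw [abs_of_nonneg (le_max_right _ _)]
      exact max_le (by linarith [Y_le h σ]) zero_le_one
    have φ2 : ∀ s s' σ, |φ (σ ∘ Equiv.swap s s') - φ σ| ≤ 8 / (Fintype.card Λ : ℝ) :=
      fun s s' σ => (abs_max_sub_max_le_abs _ _ _).trans (by
        rw [sub_sub_sub_cancel_right]; exact Y_swap h s s' σ)
    have s1 : ∑ σ, dg (sec N * W) σ * φ σ ^ 3 =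
        (ρ * (diagonal φ * (diagonal fun σ => Y σ - d) * diagonal φ)).trace := by
      rw [dg_sum, diagonal_mul_diagonal, diagonal_mul_diagonal]
      congr 3
      funext σ
      rcases le_total (Y σ - d) 0 with e | e
      · simp [hφ, max_eq_right e]
      · simp only [hφ, max_eq_left e]; ring
    have s2 := tr_mul_nonneg (hρ N) (psd_conj (op_psd h hd) (diagonal φ))
    have s3 := tr_cas (hρ N) (by positivity : (0 : ℝ) < 8 / (Fintype.card Λ : ℝ)) φ1 φ2
    have s4 : 0 ≤ (ρ * ((2 : ℝ) • lt Λ θ - (θ • (1 : BOp Λ) - cas Λ)) *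
        (diagonal φ * diagonal φ)).trace := by
      refine tr_mul_nonneg (psd_mul (hρ N) (l5 hθ) ?_) ?_
      · exact ((l3 _ cρ).symm.smul_right _).sub_right
          (((Commute.one_right _).smul_right _).sub_right cρ.symm)
      · simpa only [diagonal_transpose] using psd_tmul (diagonal φ)
    have s5 : (ρ * lt Λ θ * (diagonal φ * diagonal φ)).trace ≤ (ρ * lt Λ θ).trace := by
      rw [diagonal_mul_diagonal, tr_mul_diag]
      refine Finset.sum_le_sum fun σ _ => mul_le_of_le_one_right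
        (psd_mul (hρ N) l1 (l3 _ cρ).symm).diag_nonneg ?_
      rw [← sq, sq_le_one_iff_abs_le_one]
      exact φ1 σ
    have s6 : (ρ * lt Λ θ).trace = (sec N * lt Λ θ * W).trace := by
      rw [hρe, Matrix.mul_assoc, ← (l3 _ cH).eq, ← Matrix.mul_assoc, trace_mul_cycle,
        ← Matrix.mul_assoc, Hd_mul_Hd, Matrix.one_mul, Matrix.mul_assoc, ← (l3 _ cW).eq,
        Matrix.mul_assoc]
    change ∑ σ, dg (sec N * W) σ * φ σ ^ 3 ≤ _
    rw [s1, ← s6, ← trρ N]
    rw [diagonal_transpose, ← hρe] at s2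
    rw [← hρe] at s3 ⊢
    simp only [Matrix.mul_sub, Matrix.sub_mul, Matrix.mul_smul, Matrix.smul_mul, trace_sub,
      trace_smul, smul_eq_mul, Matrix.mul_one, Matrix.mul_assoc] at s2 s3 s4 s5 ⊢
    linarith
  · have e : ∑ N ∈ Finset.range (Fintype.card Λ + 1), dg (sec N * W) σ = W σ σ := by
      simp only [dg]
      rw [← Matrix.sum_apply, ← Finset.sum_mul, ← Finset.mul_sum, ← Finset.sum_mul, sum_sec,
        Matrix.one_mul, (hW.comm comm_Hd_swp).eq, Matrix.mul_assoc, Hd_mul_Hd, Matrix.mul_one]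
    have := (psd_mul l2 hW.psd ((Commute.one_left W).sub_left (l3 _ cW))).diag_nonneg (i := σ)
    rw [Matrix.sub_mul, Matrix.one_mul, Matrix.sub_apply] at this
    linarith
  · have cN : Commute (diagonal fun σ : Λ → Bool => (cnt σ : ℝ)) (lt Λ θ * W) :=
      (l3 _ (comm_Sq (comm_cnt_swp fun k => (k : ℝ)) _).symm).symm.mul_right
        (hW.comm (comm_cnt_swp fun k => (k : ℝ)))
    have t1 := tr_Qa (psd_symm hrb) ((l3 _ cH).symm.mul_right (hW.comm comm_Hd_swp)) cN a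
    have t2 := congrArg (fun M => (lt Λ θ * W * M).trace) (avg_dot h)
    have t3 : 0 ≤ (lt Λ θ * W * (θ • (1 : BOp Λ) - cas Λ)).trace := by
      rw [trace_mul_cycle]
      exact tr_mul_nonneg l4 hW.psd
    have t4 := mul_nonneg (be_nonneg a) hrb.trace_nonneg
    simp only [Matrix.mul_sub, Matrix.mul_add, Matrix.mul_smul, trace_sub, trace_add, trace_smul,
      smul_eq_mul, Matrix.mul_one, tr_mul_diag] at t2 t3 ⊢
    linarith

end Crest.Agent.N337.C
end

-- ▼ part N337/C/Core1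
section

/-!
# Row 337, task C-Core, part 1: the continuity argument for one good tilt
-/

set_option autoImplicit false

namespace Crest.Agent.N337.C.Co

open Finset Filter Topology Real

/-- two separated masses force a variance -/
lemma var_ge {s A B : Finset ℕ} (hA : A ⊆ s) (hB : B ⊆ s) {w x : ℕ → ℝ} (hw : ∀ i, 0 ≤ w i)
    {D : ℝ} (hD : 0 < D) (h : ∀ i ∈ A, ∀ j ∈ B, D ≤ x j - x i) :
    D ^ 2 * ((∑ i ∈ A, w i) * ∑ i ∈ B, w i) ≤
      (∑ i ∈ s, w i) * (∑ i ∈ s, w i * x i ^ 2) - (∑ i ∈ s, w i * x i) ^ 2 := by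
  have e : ∀ {A : Finset ℕ}, A ⊆ s → ∑ i ∈ A, w i = ∑ i ∈ s, if i ∈ A then w i else 0 :=
    fun hA => by rw [sum_ite_mem, inter_eq_right.2 hA]
  have h1 : ∀ i ∈ A, ∀ j ∈ B, D ^ 2 * (w i * w j) ≤ w i * w j * (x i - x j) ^ 2 := fun i hi j hj => by
    have := h i hi j hj
    rw [mul_comm]
    exact mul_le_mul_of_nonneg_left (by nlinarith) (mul_nonneg (hw i) (hw j))
  have h2 : 0 ≤ ∑ i ∈ s, ∑ j ∈ s, (w i * (w j * x j ^ 2) + w i * x i ^ 2 * w j -
      2 * (w i * x i * (w j * x j)) -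
      D ^ 2 * ((if i ∈ A then w i else 0) * if j ∈ B then w j else 0) -
      D ^ 2 * ((if i ∈ B then w i else 0) * if j ∈ A then w j else 0)) :=
    sum_nonneg fun i _ => sum_nonneg fun j _ => by
      have h0 := mul_nonneg (mul_nonneg (hw i) (hw j)) (sq_nonneg (x i - x j))
      by_cases h3 : i ∈ A ∧ j ∈ B
      · have h4 : i ∉ B := fun h4 => by linarith [h i h3.1 i h4]
        have := h1 i h3.1 j h3.2
        simp only [h3.1, h3.2, h4, if_true, if_false]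
        linarith
      by_cases h4 : i ∈ B ∧ j ∈ A
      · have h5 : i ∉ A := fun h5 => by linarith [h i h5 i h4.1]
        have := h1 j h4.2 i h4.1
        simp only [h4.1, h4.2, h5, if_true, if_false]
        linarith
      rw [ite_zero_mul_ite_zero, ite_zero_mul_ite_zero, if_neg h3, if_neg h4]
      linarith
  simp only [sum_sub_distrib, sum_add_distrib, ← mul_sum, ← sum_mul] at h2
  rw [e hA, e hB]
  linarith

lemma Z_pos {Z : ℕ → ℝ} {n N : ℕ} (hZ : Uni Z n) (h : 2 * N ≤ n) : 0 < Z N :=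
  hZ.pos.trans_le (hZ.mono 0 N N.zero_le h)

lemma num {L W H V θ n c : ℝ} (L0 : 0 < L) (W0 : 0 ≤ W) (n0 : 0 < n) (θ0 : 0 < θ)
    (h : L + W = 3 * H) (h1 : 4 * W ≤ L) (h2 : (c * n / 2) ^ 2 * (L * H) ≤ V)
    (h3 : θ * V ≤ n / 2 * (3 * H + H) ^ 2) (ht : 14 ≤ θ * n * c ^ 2) : False := by
  have H0 : 0 < H := by linarith
  have h4 : (c * n / 2) ^ 2 * (12 / 5 * H * H) ≤ V := le_trans (mul_le_mul_of_nonneg_left
    (mul_le_mul_of_nonneg_right (by linarith) H0.le) (sq_nonneg _)) h2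
  have h5 := (mul_le_mul_of_nonneg_left h4 θ0.le).trans h3
  have h6 : 0 < n * H ^ 2 := by positivity
  nlinarith [mul_le_mul_of_nonneg_right ht h6.le]

lemma two_le {N n : ℕ} {c : ℝ} (hc' : c ≤ 1 / 8) (h : (N : ℝ) ≤ 2 * c * n) : 2 * N ≤ n := by
  have : (2 * N : ℝ) ≤ n := by nlinarith [(n.cast_nonneg : (0 : ℝ) ≤ n)]
  exact_mod_cast this

section good
variable {ν Z : ℕ → ℝ} {n Nm N1 : ℕ} {c γ t₀ : ℝ}

/-- no tilt puts exactly a quarter of the mass above `N1` -/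
lemma ne_quarter (hc : 0 < c) (hc' : c ≤ 1 / 8) (hn : 1 ≤ c * n) (hm : (Nm : ℝ) ≤ c * n / 16)
    (h1 : c * n ≤ N1) (h1' : (N1 : ℝ) ≤ 2 * c * n) (hZ : Uni Z n) (hf : Z N1 ≤ 2 * Z Nm)
    (hν : ∀ N, Z N ≤ ν N) (hγ : ∑ N ∈ range (N1 + 1), ν N ≤ γ * ∑ N ∈ range (N1 + 1), Z N)
    {θ : ℝ} (ht : 14 / c ^ 2 ≤ θ * n) (ht' : 128 * γ ≤ exp (θ * n * c / 4))
    (hN : θ * (mo ν n 0 θ * mo ν n 2 θ - mo ν n 1 θ ^ 2) ≤ n / 2 * mo ν n 0 θ ^ 2) :
    ∑ N ∈ range (N1 + 1), ν N * exp (-(θ * N)) ≠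
      3 * ∑ N ∈ Ico (N1 + 1) (n + 1), ν N * exp (-(θ * N)) := fun he => by
  have n0 : (0 : ℝ) < n := pos_of_mul_pos_right (one_pos.trans_le hn) hc.le
  have θ0 : 0 < θ := pos_of_mul_pos_left (lt_of_lt_of_le (by positivity) ht) n0.le
  have ν0 : ∀ N, 0 ≤ ν N := fun N => (hZ.nonneg N).trans (hν N)
  have hw : ∀ N, 0 ≤ ν N * exp (-(θ * N)) := fun N => mul_nonneg (ν0 N) (exp_pos _).le
  have h2 : 2 * N1 ≤ n := two_le hc' h1'
  have hZm := Z_pos hZ (two_le (N := Nm) hc' (by linarith))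
  set a := ⌈c * n / 2⌉₊ with ha
  have ha1 : a ≤ N1 + 1 := (Nat.ceil_le.2 (by linarith)).trans N1.le_succ
  have h3 := sum_range_add_sum_Ico (fun N => ν N * exp (-(θ * N))) ha1
  have h4 := sum_range_add_sum_Ico (fun N => ν N * exp (-(θ * N))) (show N1 + 1 ≤ n + 1 by omega)
  -- the low part
  have h5 : 3 * (c * n) / 16 * (Z Nm * exp (-(θ * n * c / 4))) ≤
      ∑ N ∈ range a, ν N * exp (-(θ * N)) := by
    have hb := Nat.floor_le (show 0 ≤ c * n / 4 by positivity)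
    have hb' := Nat.lt_floor_add_one (c * n / 4)
    have hb2 : Nm ≤ ⌊c * n / 4⌋₊ + 1 := by
      have : (Nm : ℝ) ≤ ⌊c * n / 4⌋₊ + 1 := by linarith
      exact_mod_cast this
    refine le_trans ?_ (sum_le_sum_of_subset_of_nonneg (s := Ico Nm (⌊c * n / 4⌋₊ + 1))
      (fun N hN => mem_range.2 (Nat.lt_ceil.2 ?_)) fun N _ _ => hw N)
    · refine le_trans ?_ (card_nsmul_le_sum _ _ (Z Nm * exp (-(θ * n * c / 4))) fun N hN => ?_)
      · rw [Nat.card_Ico, nsmul_eq_mul, Nat.cast_sub hb2]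
        exact mul_le_mul_of_nonneg_right (by push_cast; linarith) (by positivity)
      · obtain ⟨h6, h7⟩ := mem_Ico.1 hN
        have h8 : (N : ℝ) ≤ c * n / 4 := (Nat.cast_le.2 (Nat.lt_succ_iff.1 h7)).trans hb
        exact mul_le_mul ((hZ.mono _ _ h6 (two_le hc' (by linarith))).trans (hν N))
          (exp_le_exp.2 (by linarith [mul_le_mul_of_nonneg_left h8 θ0.le])) (exp_pos _).le (ν0 N)
    · have h8 : (N : ℝ) ≤ c * n / 4 :=
        (Nat.cast_le.2 (Nat.lt_succ_iff.1 (mem_Ico.1 hN).2)).trans hb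
      linarith
  -- the window
  have hZl : ∑ N ∈ range (N1 + 1), Z N ≤ 6 * (c * n) * Z Nm := by
    refine (sum_le_card_nsmul _ _ (Z N1) fun N hN =>
      hZ.mono _ _ (Nat.lt_succ_iff.1 (mem_range.1 hN)) h2).trans ?_
    rw [card_range, nsmul_eq_mul]
    push_cast
    exact (mul_le_mul (show _ ≤ 3 * (c * n) by linarith) hf (hZ.nonneg _) (by positivity)).trans_eq
      (by ring)
  have γ0 : 0 ≤ γ := nonneg_of_mul_nonneg_left ((sum_nonneg fun N _ => ν0 N).trans hγ)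
    (sum_pos' (fun N _ => hZ.nonneg N) ⟨0, by simp, hZ.pos⟩)
  have h6 : ∑ N ∈ Ico a (N1 + 1), ν N * exp (-(θ * N)) ≤
      γ * (6 * (c * n) * Z Nm) * exp (-(θ * n * c / 2)) := by
    refine le_trans (sum_le_sum (g := fun N => ν N * exp (-(θ * n * c / 2))) fun N hN => ?_) ?_
    · have h7 : c * n / 2 ≤ N := Nat.ceil_le.1 (mem_Ico.1 hN).1
      exact mul_le_mul_of_nonneg_left
        (exp_le_exp.2 (by linarith [mul_le_mul_of_nonneg_left h7 θ0.le])) (ν0 N)
    · rw [← sum_mul]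
      refine mul_le_mul_of_nonneg_right (le_trans ?_
        (hγ.trans (mul_le_mul_of_nonneg_left hZl γ0))) (exp_pos _).le
      exact sum_le_sum_of_subset_of_nonneg (fun N hN => mem_range.2 (mem_Ico.1 hN).2)
        fun N _ _ => ν0 N
  have h7 : 128 * γ * exp (-(θ * n * c / 2)) ≤ exp (-(θ * n * c / 4)) :=
    (mul_le_mul_of_nonneg_right ht' (exp_pos _).le).trans (by rw [← exp_add]; ring_nf; rfl)
  have h8 := var_ge (s := range (n + 1)) (A := range a) (B := Ico (N1 + 1) (n + 1))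
    (range_subset_range.2 (by omega)) (fun N hN => mem_range.2 (mem_Ico.1 hN).2) hw
    (x := fun N => (N : ℝ)) (D := c * n / 2) (by positivity) fun i hi j hj => by
      have h9 : (i : ℝ) < c * n / 2 := Nat.lt_ceil.1 (mem_range.1 hi)
      have h10 : ((N1 + 1 : ℕ) : ℝ) ≤ j := Nat.cast_le.2 (mem_Ico.1 hj).1
      push_cast at h10
      linarith
  simp only [mo, pow_zero, mul_one, pow_one, mul_right_comm (ν _) _ (exp _)] at hN
  rw [← h4, he] at hN h8
  refine num (lt_of_lt_of_le (by positivity) h5) (sum_nonneg fun N _ => hw N) n0 θ0 (h3.trans he)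
    ?_ h8 hN ((div_le_iff₀ (by positivity)).1 ht)
  have := mul_le_mul_of_nonneg_left h7 (show 0 ≤ 3 * (c * n) / 16 * Z Nm by positivity)
  linarith

/-- **a tilt with little mass below `N1` has little mass** -/
theorem good (hc : 0 < c) (hc' : c ≤ 1 / 8) (hn : 1 ≤ c * n) (hm : (Nm : ℝ) ≤ c * n / 16)
    (h1 : c * n ≤ N1) (h1' : (N1 : ℝ) ≤ 2 * c * n) (hZ : Uni Z n) (hf : Z N1 ≤ 2 * Z Nm)
    (hν : ∀ N, Z N ≤ ν N) (hγ : ∑ N ∈ range (N1 + 1), ν N ≤ γ * ∑ N ∈ range (N1 + 1), Z N)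
    (ht : 14 / c ^ 2 ≤ t₀) (ht' : 128 * γ ≤ exp (t₀ * c / 4)) (hs : ∀ N, N ≤ n → ν (n - N) = ν N)
    (hN : ∀ θ : ℝ, 0 < θ →
      θ * (mo ν n 0 θ * mo ν n 2 θ - mo ν n 1 θ ^ 2) ≤ n / 2 * mo ν n 0 θ ^ 2) :
    ∑ N ∈ range (n + 1), ν N ≤ 4 / 3 * γ * exp (t₀ / 2) * ∑ N ∈ range (n + 1), Z N := by
  have n0 : (0 : ℝ) < n := pos_of_mul_pos_right (one_pos.trans_le hn) hc.le
  have t0 : 0 < t₀ := lt_of_lt_of_le (by positivity) ht
  have ν0 : ∀ N, 0 ≤ ν N := fun N => (hZ.nonneg N).trans (hν N)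
  have h2 : N1 + 1 ≤ n + 1 := by have := two_le hc' h1'; omega
  have γ0 : 0 ≤ γ := nonneg_of_mul_nonneg_left ((sum_nonneg fun N _ => ν0 N).trans hγ)
    (sum_pos' (fun N _ => hZ.nonneg N) ⟨0, by simp, hZ.pos⟩)
  let f : ℝ → ℝ := fun θ => ∑ N ∈ range (N1 + 1), ν N * exp (-(θ * N)) -
    3 * ∑ N ∈ Ico (N1 + 1) (n + 1), ν N * exp (-(θ * N))
  have hθ : 0 < t₀ / n := by positivity
  have h3 : 0 < f (t₀ / n) := by
    by_contra h
    have h4 : Tendsto (fun θ : ℝ => 3 * ∑ N ∈ Ico (N1 + 1) (n + 1), ν N * exp (-(θ * N))) atTop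
        (𝓝 (3 * ∑ N ∈ Ico (N1 + 1) (n + 1), ν N * 0)) :=
      (tendsto_finsetSum _ fun N hN => (tendsto_exp_neg_atTop_nhds_zero.comp
        (tendsto_id.atTop_mul_const (Nat.cast_pos.2 (by
          have := (mem_Ico.1 hN).1; omega)))).const_mul _).const_mul _
    simp only [mul_zero, sum_const_zero] at h4
    obtain ⟨T, h5, h6⟩ := ((h4.eventually (gt_mem_nhds (hZ.pos.trans_le (hν 0)))).and
      (eventually_ge_atTop (t₀ / n))).exists
    have h7 : 0 ≤ f T := by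
      have := single_le_sum (f := fun N : ℕ => ν N * exp (-(T * N))) (s := range (N1 + 1))
        (fun N _ => mul_nonneg (ν0 N) (exp_pos _).le) (mem_range.2 N1.succ_pos)
      simp only [Nat.cast_zero, mul_zero, neg_zero, exp_zero, mul_one] at this
      simp only [f]
      linarith
    obtain ⟨θ, ⟨h8, -⟩, h9⟩ := intermediate_value_Icc h6 (f := f) (by fun_prop) ⟨not_lt.1 h, h7⟩
    have h10 : t₀ ≤ θ * n := (div_le_iff₀ n0).1 h8
    exact ne_quarter hc hc' hn hm h1 h1' hZ hf hν hγ (ht.trans h10)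
      (ht'.trans (exp_le_exp.2 (by linarith [mul_le_mul_of_nonneg_right h10 hc.le])))
      (hN θ (hθ.trans_le h8)) (sub_eq_zero.1 h9)
  have h4 := sum_range_add_sum_Ico (fun N => ν N * exp (-(t₀ / n * N))) h2
  have h5 : ∑ N ∈ range (N1 + 1), ν N * exp (-(t₀ / n * N)) ≤ γ * ∑ N ∈ range (n + 1), Z N :=
    (sum_le_sum fun N _ => mul_le_of_le_one_right (ν0 N) (exp_le_one_iff.2 (neg_nonpos.2
      (by positivity)))).trans (hγ.trans (mul_le_mul_of_nonneg_left
        (sum_le_sum_of_subset_of_nonneg (range_subset_range.2 h2) fun N _ _ => hZ.nonneg N) γ0))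
  have h6 : ∑ N ∈ range (n + 1), ν N * exp (-(t₀ / n * (n - N : ℕ))) =
      ∑ N ∈ range (n + 1), ν N * exp (-(t₀ / n * N)) := by
    rw [← sum_flip fun N => ν N * exp (-(t₀ / n * N))]
    exact sum_congr rfl fun N hN => by rw [hs N (Nat.lt_succ_iff.1 (mem_range.1 hN))]
  have h7 : 2 * ∑ N ∈ range (n + 1), ν N ≤ exp (t₀ / 2) *
      (∑ N ∈ range (n + 1), ν N * exp (-(t₀ / n * (n - N : ℕ))) +
        ∑ N ∈ range (n + 1), ν N * exp (-(t₀ / n * N))) := by
    rw [← sum_add_distrib, mul_sum, mul_sum]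
    refine sum_le_sum fun N hN => ?_
    rw [Nat.cast_sub (Nat.lt_succ_iff.1 (mem_range.1 hN)), ← mul_add, mul_left_comm, mul_add,
      ← exp_add, ← exp_add, mul_comm, mul_sub, div_mul_cancel₀ _ n0.ne']
    exact mul_le_mul_of_nonneg_left (by
      linarith [add_one_le_exp (t₀ / 2 + -(t₀ - t₀ / n * N)),
        add_one_le_exp (t₀ / 2 + -(t₀ / n * N))]) (ν0 N)
  rw [h6] at h7
  have h8 : ∑ N ∈ range (n + 1), ν N * exp (-(t₀ / n * N)) ≤
      4 / 3 * (γ * ∑ N ∈ range (n + 1), Z N) := by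
    simp only [f] at h3
    linarith
  linarith [mul_le_mul_of_nonneg_left h8 (exp_pos (t₀ / 2)).le]
end good

end Crest.Agent.N337.C.Co
end

-- ▼ part N337/C/Core

/-!
# Row 337, task C-Core: random tilts by differences of block values
-/

set_option autoImplicit false
set_option linter.unusedSectionVars false

namespace Crest.Agent.N337.C
open Finset Real

namespace Co

/-- averaging over patterns: good ones are bounded, bad ones are rare -/
lemma avg {T S : Type} [Fintype T] [Fintype S] {O : T → S → ℝ} (hO : ∀ P σ, 0 ≤ O P σ)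
    {Q ql : S → ℝ} (hQ : ∀ σ, 0 ≤ Q σ) (hl : ∀ σ, 0 ≤ ql σ) {γ A s B : ℝ} {p : ℕ}
    (Zl : 0 < ∑ σ, ql σ) (γ0 : 0 < γ) (s0 : 0 < s) (A0 : 0 ≤ A)
    (hg : ∀ P, ∑ σ, ql σ * O P σ ≤ γ * ∑ σ, ql σ → ∑ σ, Q σ * O P σ ≤ A * ∑ σ, Q σ)
    (h1 : ∑ σ, ql σ * ∑ P, O P σ ^ p ≤ Fintype.card T * (B * ∑ σ, ql σ))
    (h2 : ∀ σ, ∑ P, O P σ ^ 2 ≤ Fintype.card T * s) (h3 : s * B ≤ 2 * γ ^ p) :
    ∑ σ, Q σ * ∑ P, O P σ ≤ Fintype.card T * ((A + 3 / 2) * ∑ σ, Q σ) := by
  have Zt : 0 ≤ ∑ σ, Q σ := sum_nonneg fun σ _ => hQ σ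
  have h4 : ∀ P, ∑ σ, Q σ * O P σ ≤ A * ∑ σ, Q σ +
      s / 2 * (∑ σ, Q σ) / ((∑ σ, ql σ) * γ ^ p) * ∑ σ, ql σ * O P σ ^ p +
      1 / (2 * s) * ∑ σ, Q σ * O P σ ^ 2 := fun P => by
    have h5 : 0 ≤ ∑ σ, ql σ * O P σ ^ p := sum_nonneg fun σ _ =>
      mul_nonneg (hl σ) (pow_nonneg (hO P σ) _)
    have h6 : 0 ≤ ∑ σ, Q σ * O P σ ^ 2 := sum_nonneg fun σ _ => mul_nonneg (hQ σ) (sq_nonneg _)
    by_cases h : ∑ σ, ql σ * O P σ ≤ γ * ∑ σ, ql σ
    · exact (hg P h).trans ((le_add_of_nonneg_right (by positivity)).trans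
        (le_add_of_nonneg_right (by positivity)))
    have h7 := Real.pow_arith_mean_le_arith_mean_pow univ (fun σ => ql σ / ∑ σ, ql σ) (O P)
      (fun σ _ => div_nonneg (hl σ) Zl.le) (by rw [← sum_div, div_self Zl.ne'])
      (fun σ _ => hO P σ) p
    simp only [div_mul_eq_mul_div, ← sum_div] at h7
    have h8 : (∑ σ, ql σ) * γ ^ p ≤ ∑ σ, ql σ * O P σ ^ p := by
      rw [mul_comm, ← le_div_iff₀ Zl]
      exact (pow_le_pow_left₀ γ0.le ((le_div_iff₀ Zl).2 (not_le.1 h).le) p).trans h7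
    have h9 : s / 2 * ∑ σ, Q σ ≤
        s / 2 * (∑ σ, Q σ) / ((∑ σ, ql σ) * γ ^ p) * ∑ σ, ql σ * O P σ ^ p := by
      rw [div_mul_eq_mul_div _ (_ * _), le_div_iff₀ (by positivity)]
      exact mul_le_mul_of_nonneg_left h8 (by positivity)
    have h10 : ∑ σ, Q σ * O P σ ≤ s / 2 * ∑ σ, Q σ + 1 / (2 * s) * ∑ σ, Q σ * O P σ ^ 2 := by
      rw [mul_sum, mul_sum, ← sum_add_distrib]
      refine sum_le_sum fun σ _ => ?_
      have : O P σ ≤ s / 2 + 1 / (2 * s) * O P σ ^ 2 := by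
        rw [← sub_nonneg, show s / 2 + 1 / (2 * s) * O P σ ^ 2 - O P σ =
          (s - O P σ) ^ 2 / (2 * s) by field_simp; ring]
        positivity
      linarith [mul_le_mul_of_nonneg_left this (hQ σ)]
    linarith [mul_nonneg A0 Zt]
  have e : ∀ (w : S → ℝ) (F : T → S → ℝ), ∑ P, ∑ σ, w σ * F P σ = ∑ σ, w σ * ∑ P, F P σ :=
    fun w F => by rw [sum_comm]; simp only [mul_sum]
  have h5 := sum_le_sum fun P (_ : P ∈ univ) => h4 P
  rw [sum_add_distrib, sum_add_distrib, ← mul_sum _ _ (_ / (_ * _)), ← mul_sum _ _ (1 / _), e, e, e,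
    sum_const, card_univ, nsmul_eq_mul] at h5
  have h6 : ∑ σ, Q σ * ∑ P, O P σ ^ 2 ≤ (∑ σ, Q σ) * (Fintype.card T * s) := by
    rw [sum_mul]
    exact sum_le_sum fun σ _ => mul_le_mul_of_nonneg_left (h2 σ) (hQ σ)
  have h7 : s / 2 * (∑ σ, Q σ) / ((∑ σ, ql σ) * γ ^ p) * ∑ σ, ql σ * ∑ P, O P σ ^ p ≤
      Fintype.card T * ∑ σ, Q σ := by
    refine (mul_le_mul_of_nonneg_left h1 (by positivity)).trans ?_
    rw [div_mul_eq_mul_div _ (_ * _), div_le_iff₀ (by positivity)]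
    linarith [mul_le_mul_of_nonneg_left h3
      (show 0 ≤ Fintype.card T * (∑ σ, Q σ) * (∑ σ, ql σ) / 2 by positivity)]
  have h8 : 1 / (2 * s) * ∑ σ, Q σ * ∑ P, O P σ ^ 2 ≤ Fintype.card T * (∑ σ, Q σ) / 2 :=
    (mul_le_mul_of_nonneg_left h6 (by positivity)).trans_eq (by field_simp)
  linarith

lemma exp_le {x : ℝ} (h : |x| ≤ 1) : exp x ≤ 1 + x + x ^ 2 := by
  linarith [(abs_le.1 (abs_exp_sub_one_sub_id_le h)).2]
lemma le_exp {x : ℝ} (h : |x| ≤ 1) : 1 + x + x ^ 2 / 4 ≤ exp x := by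
  have h1 := pow_le_pow_left₀ (by linarith [(abs_le.1 h).1]) (add_one_le_exp (x / 2)) 2
  rw [← exp_nat_mul, show ((2 : ℕ) : ℝ) * (x / 2) = x by push_cast; ring] at h1
  linarith

variable {Z S : Type} [Fintype Z] {u : Z → S → ℝ} {a : ℝ} {k : ℕ}
/-- the tilt of a pattern -/
noncomputable def O (u : Z → S → ℝ) (a : ℝ) (P : Fin k → Z × Z) (σ : S) : ℝ :=
  exp (a * ∑ i, (u (P i).1 σ - u (P i).2 σ))
omit [Fintype Z] in
lemma O_pow (P : Fin k → Z × Z) (σ : S) (j : ℕ) : O u a P σ ^ j = O u (j * a) P σ := by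
  rw [O, O, ← exp_nat_mul, mul_assoc]
lemma sum_O (σ : S) : ∑ P : Fin k → Z × Z, O u a P σ =
    (∑ y : Z × Z, exp (a * (u y.1 σ - u y.2 σ))) ^ k := by
  rw [Fintype.sum_pow]
  exact sum_congr rfl fun P _ => by rw [O, mul_sum, exp_sum]
lemma exists_w (u : Z → S → ℝ) (a : ℝ) (P : Fin k → Z × Z) :
    ∃ w : Z → ℝ, ∀ σ, exp (∑ z, w z * u z σ) = O u a P σ := by
  classical
  refine ⟨fun z => a * ∑ i, ((if (P i).1 = z then 1 else 0) - if (P i).2 = z then 1 else 0),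
    fun σ => congrArg exp ?_⟩
  simp only [mul_assoc, ← mul_sum, sum_mul, sub_mul]
  rw [sum_comm]
  simp
lemma sum_dl (σ : S) : ∑ y : Z × Z, (u y.1 σ - u y.2 σ) = 0 := by
  rw [sum_sub_distrib, sub_eq_zero, Fintype.sum_prod_type, Fintype.sum_prod_type_right]
variable [Nonempty Z]
lemma sum_dl_sq (σ : S) :
    ∑ y : Z × Z, (u y.1 σ - u y.2 σ) ^ 2 = (Fintype.card Z : ℝ) ^ 2 * Yv u σ := by
  rw [Yv, mul_div_cancel₀ _ (by positivity), Fintype.sum_prod_type]
omit [Fintype Z] [Nonempty Z] in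
lemma dl_le (hu : ∀ z σ, |u z σ| ≤ 1 / 2) (y : Z × Z) (σ : S) : |u y.1 σ - u y.2 σ| ≤ 1 :=
  (abs_sub _ _).trans (by linarith [hu y.1 σ, hu y.2 σ])
omit [Nonempty Z] in
lemma Y_nonneg (σ : S) : 0 ≤ Yv u σ := by unfold Yv; positivity
lemma card_sq : (Fintype.card (Z × Z) : ℝ) = (Fintype.card Z : ℝ) ^ 2 := by
  rw [Fintype.card_prod, Nat.cast_mul, sq]
lemma Y_le (hu : ∀ z σ, |u z σ| ≤ 1 / 2) (σ : S) : Yv u σ ≤ 1 := by
  have := sum_le_card_nsmul univ (fun y : Z × Z => (u y.1 σ - u y.2 σ) ^ 2) 1 fun y _ =>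
    (sq_le_one_iff_abs_le_one _).2 (dl_le hu y σ)
  rw [sum_dl_sq, card_univ, nsmul_eq_mul, card_sq] at this
  exact le_of_mul_le_mul_left this (by positivity)
lemma card_pat : (Fintype.card (Fin k → Z × Z) : ℝ) = ((Fintype.card Z : ℝ) ^ 2) ^ k := by
  rw [Fintype.card_fun, Fintype.card_fin, Nat.cast_pow, card_sq]
lemma sum_quad (b : ℝ) (σ : S) : ∑ y : Z × Z, (1 + a * (u y.1 σ - u y.2 σ) +
    (a * (u y.1 σ - u y.2 σ)) ^ 2 / b) = (Fintype.card Z : ℝ) ^ 2 * (1 + a ^ 2 * Yv u σ / b) := by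
  simp only [sum_add_distrib, mul_pow, ← sum_div, ← mul_sum, sum_dl, sum_dl_sq, sum_const, card_univ,
    nsmul_eq_mul, card_sq]
  ring
omit [Fintype Z] [Nonempty Z] in
lemma adl_le (hu : ∀ z σ, |u z σ| ≤ 1 / 2) (ha : |a| ≤ 1) (y : Z × Z) (σ : S) :
    |a * (u y.1 σ - u y.2 σ)| ≤ 1 := by
  rw [abs_mul]
  exact mul_le_one₀ ha (abs_nonneg _) (dl_le hu y σ)
lemma sum_O_le (hu : ∀ z σ, |u z σ| ≤ 1 / 2) (ha : |a| ≤ 1) (σ : S) :
    ∑ P : Fin k → Z × Z, O u a P σ ≤ Fintype.card (Fin k → Z × Z) * (1 + a ^ 2 * Yv u σ) ^ k := by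
  rw [sum_O, card_pat, ← mul_pow, ← div_one (a ^ 2 * _), ← sum_quad]
  exact pow_le_pow_left₀ (sum_nonneg fun _ _ => (exp_pos _).le)
    (sum_le_sum fun y _ => by rw [div_one]; exact exp_le (adl_le hu ha y σ)) k
lemma le_sum_O (hu : ∀ z σ, |u z σ| ≤ 1 / 2) (ha : |a| ≤ 1) (σ : S) :
    Fintype.card (Fin k → Z × Z) * exp (a ^ 2 * k / 8 * Yv u σ) ≤
      ∑ P : Fin k → Z × Z, O u a P σ := by
  have h0 := mul_nonneg (sq_nonneg a) (Y_nonneg (u := u) σ)
  have h1 : a ^ 2 * Yv u σ ≤ 1 :=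
    mul_le_one₀ ((sq_le_one_iff_abs_le_one _).2 ha) (Y_nonneg σ) (Y_le hu σ)
  rw [sum_O, card_pat, show a ^ 2 * k / 8 * Yv u σ = k * (a ^ 2 * Yv u σ / 8) by ring, exp_nat_mul,
    ← mul_pow]
  refine pow_le_pow_left₀ (by positivity) (le_trans ?_
    ((sum_quad 4 σ).ge.trans (sum_le_sum fun y _ => le_exp (adl_le hu ha y σ)))) k
  exact mul_le_mul_of_nonneg_left ((exp_le (abs_le.2 ⟨by linarith, by linarith⟩)).trans
    (by nlinarith)) (by positivity)

lemma pow_le {Y d : ℝ} (hd : 0 < d) (h0 : 0 ≤ Y) (h1 : Y ≤ 1) (k : ℕ) :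
    (1 + Y) ^ k ≤ exp (2 * d * k) + 2 ^ k / d ^ 3 * max (Y - d) 0 ^ 3 := by
  by_cases h : Y ≤ 2 * d
  · refine le_trans ?_ (le_add_of_nonneg_right (by positivity))
    rw [mul_comm, exp_nat_mul]
    exact pow_le_pow_left₀ (by linarith) (by linarith [add_one_le_exp (2 * d)]) k
  · refine le_trans ?_ (le_add_of_nonneg_left (exp_pos _).le)
    rw [div_mul_eq_mul_div, le_div_iff₀ (by positivity)]
    exact mul_le_mul (pow_le_pow_left₀ (by linarith) (by linarith) k)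
      (pow_le_pow_left₀ hd.le (le_max_of_le_left (by linarith)) 3) (by positivity) (by positivity)

/-- tangent line of the exponential -/
lemma tang [Fintype S] {q Y : S → ℝ} (hq : ∀ σ, 0 ≤ q σ) {b m : ℝ} (hb : 0 ≤ b)
    (h : m * ∑ σ, q σ ≤ ∑ σ, q σ * Y σ) : exp (b * m) * ∑ σ, q σ ≤ ∑ σ, q σ * exp (b * Y σ) := by
  have h1 : ∑ σ, exp (b * m) * (q σ + b * (q σ * Y σ) - b * m * q σ) ≤
      ∑ σ, q σ * exp (b * Y σ) := sum_le_sum fun σ _ => by
    have := mul_le_mul_of_nonneg_left (add_one_le_exp (b * Y σ - b * m))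
      (mul_nonneg (hq σ) (exp_pos (b * m)).le)
    rw [mul_assoc (q σ) _ (exp _), ← exp_add, add_sub_cancel] at this
    linarith
  simp only [← mul_sum, sum_sub_distrib, sum_add_distrib] at h1
  exact le_trans (mul_le_mul_of_nonneg_left (by linarith [mul_le_mul_of_nonneg_left h hb])
    (exp_pos _).le) h1

/-- the constants -/
lemma exists_const {c κ : ℝ} (hc : 0 < c) (hc' : c ≤ 1 / 8) (hκ : 0 < κ) :
    ∃ (l θ : ℝ) (p k : ℕ), 0 < l ∧ 2 * l ≤ 1 ∧ p * l = 1 ∧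
      (2 * l) ^ 2 + 2 * (c ^ 4 / 10 ^ 7) ≤ p * θ ∧ 0 ≤ θ ∧
      4 / 3 * exp (θ * k) * exp ((14 / c ^ 2 + 20 / c + 4 * θ * k / c) / 2) + 3 / 2 <
        exp (l ^ 2 * k / 8 * (c / 5)) * κ := by
  have c2 : c ^ 2 ≤ 1 := by nlinarith
  have h1 := Nat.le_ceil (1600 / c ^ 2)
  have h2 := Nat.ceil_lt_add_one (show 0 ≤ 1600 / c ^ 2 by positivity)
  generalize ⌈1600 / c ^ 2⌉₊ = p at h1 h2
  have p0 : (0 : ℝ) < p := lt_of_lt_of_le (by positivity) h1
  obtain ⟨l, l0, hl⟩ : ∃ l : ℝ, 0 < l ∧ p * l = 1 := ⟨1 / p, by positivity, by field_simp⟩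
  rw [div_le_iff₀ (by positivity)] at h1
  rw [div_add_one (by positivity), lt_div_iff₀ (by positivity)] at h2
  have h3 : 1600 * l ≤ c ^ 2 := by nlinarith [mul_le_mul_of_nonneg_right h1 l0.le]
  have h4 : c ^ 2 ≤ 1601 * l := by nlinarith [mul_le_mul_of_nonneg_right h2.le l0.le]
  obtain ⟨k, hk⟩ := exists_nat_gt
    ((4 / 3 * exp (7 / c ^ 2 + 10 / c) + 3 / 2) / (κ * (l ^ 2 * c / 80)))
  rw [div_lt_iff₀ (by positivity)] at hk
  refine ⟨l, l ^ 2 * c ^ 2 / 200, p, k, l0, by linarith, hl, ?_, by positivity, ?_⟩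
  · rw [show p * (l ^ 2 * c ^ 2 / 200) = (p * l) * (l * c ^ 2 / 200) by ring, hl]
    nlinarith [mul_le_mul_of_nonneg_left h3 l0.le, mul_le_mul_of_nonneg_left h4 (sq_nonneg c),
      mul_pos l0 (pow_pos hc 2)]
  · set x := l ^ 2 * c / 80 * k with hx
    have x0 : 0 ≤ x := by positivity
    have h5 : exp (l ^ 2 * c ^ 2 / 200 * k) *
        exp ((14 / c ^ 2 + 20 / c + 4 * (l ^ 2 * c ^ 2 / 200) * k / c) / 2) ≤
        exp (7 / c ^ 2 + 10 / c) * exp x := by
      rw [← exp_add, ← exp_add, exp_le_exp, show 4 * (l ^ 2 * c ^ 2 / 200) * k / c =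
        l ^ 2 * c / 50 * k by field_simp; ring, hx]
      have := mul_le_mul_of_nonneg_left hc' (show 0 ≤ l ^ 2 * c * k by positivity)
      have : 0 ≤ l ^ 2 * c * k := by positivity
      ring_nf at *
      linarith
    rw [show l ^ 2 * k / 8 * (c / 5) = x + x by rw [hx]; ring, exp_add, mul_assoc (4 / 3 : ℝ)]
    have h6 := one_le_exp x0
    have h7 : 4 / 3 * exp (7 / c ^ 2 + 10 / c) + 3 / 2 < exp x * κ := by
      nlinarith [add_one_le_exp x]
    nlinarith [mul_lt_mul_of_pos_left h7 (exp_pos x)]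
end Co
open Co

/-- **(Core)** -/
theorem core : CoreStmt := by
  intro c hc hc' κ hκ
  obtain ⟨l, θ, p, k, l0, l2, hp, h1, θ0, h2⟩ := exists_const hc hc' hκ
  set d := c ^ 4 / 10 ^ 7 with hd
  have d0 : 0 < d := by positivity
  refine ⟨min (min c (κ * c / 20)) (d ^ 3 / 2 ^ k), by positivity, ?_⟩
  set ε := min (min c (κ * c / 20)) (d ^ 3 / 2 ^ k)
  have ε1 : ε ≤ c := (min_le_left _ _).trans (min_le_left _ _)
  have ε2 : ε ≤ κ * c / 20 := (min_le_left _ _).trans (min_le_right _ _)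
  have ε3 : 2 ^ k / d ^ 3 * ε ≤ 1 :=
    (mul_le_mul_of_nonneg_left (min_le_right _ _) (by positivity)).trans_eq (by field_simp)
  intro S Z _ _ _ n Nm N1 u q qb hu hq hb hZ h0 hw hY hm hN hN' hn hf hc4
  by_contra hcon
  have hn' : 1 ≤ c * n := hn.trans (mul_le_mul_of_nonneg_right ε1 n.cast_nonneg)
  have e : ∀ (m : ℕ) (F : S → ℝ), ∑ σ, (∑ N ∈ range m, q N σ) * F σ =
      ∑ N ∈ range m, ∑ σ, q N σ * F σ := fun m F => by rw [sum_comm]; simp only [sum_mul]
  have e' : ∀ m : ℕ, ∑ σ, ∑ N ∈ range m, q N σ = ∑ N ∈ range m, ∑ σ, q N σ := fun m => sum_comm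
  have Z0 : ∀ m : ℕ, 0 < ∑ N ∈ range (m + 1), ∑ σ, q N σ := fun m =>
    sum_pos' (fun N _ => hZ.nonneg N) ⟨0, by simp, hZ.pos⟩
  have hl1 : |l| ≤ 1 := by rw [abs_of_pos l0]; linarith
  have h3 := avg (O := fun P : Fin k → Z × Z => O u l P) (fun _ _ => (exp_pos _).le)
    (Q := fun σ => ∑ N ∈ range (n + 1), q N σ) (ql := fun σ => ∑ N ∈ range (N1 + 1), q N σ)
    (fun σ => sum_nonneg fun N _ => hq N σ) (fun σ => sum_nonneg fun N _ => hq N σ)
    (γ := exp (θ * k)) (A := 4 / 3 * exp (θ * k) * exp ((14 / c ^ 2 + 20 / c + 4 * θ * k / c) / 2))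
    (s := exp ((2 * l) ^ 2 * k)) (B := 2 * exp (2 * d * k)) (p := p) (e' _ ▸ Z0 N1) (exp_pos _)
    (exp_pos _) (by positivity) (fun P hP => ?_) ?_ (fun σ => ?_) ?_
  · rw [e'] at h3
    have h4 := tang (q := qb) (Y := Yv u) (fun σ => (hb σ).1) (b := l ^ 2 * k / 8) (m := c / 5)
      (by positivity) (by
        have := mul_le_mul_of_nonneg_right ε2 (Z0 n).le
        have := mul_le_mul_of_nonneg_left (not_le.1 hcon).le hc.le
        linarith)
    have h5 : Fintype.card (Fin k → Z × Z) * ∑ σ, qb σ * exp (l ^ 2 * k / 8 * Yv u σ) ≤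
        ∑ σ, (∑ N ∈ range (n + 1), q N σ) * ∑ P : Fin k → Z × Z, O u l P σ := by
      rw [mul_sum]
      exact sum_le_sum fun σ _ => (mul_left_comm _ _ _).trans_le (mul_le_mul (hb σ).2
        (le_sum_O hu hl1 σ) (by positivity) (sum_nonneg fun N _ => hq N σ))
    have h6 := h4.trans (le_of_mul_le_mul_left (h5.trans h3) (by rw [card_pat]; positivity))
    have h7 := mul_lt_mul_of_pos_left (not_le.1 hcon) (exp_pos (l ^ 2 * k / 8 * (c / 5)))
    linarith [mul_lt_mul_of_pos_right h2 (Z0 n)]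
  · obtain ⟨w, hw'⟩ := exists_w u l P
    obtain ⟨h3, h4⟩ := hw w
    simp only [hw'] at h3 h4
    rw [e, e'] at hP ⊢
    refine good hc hc' hn' hm hN hN' hZ hf (fun N => ?_) hP
      (by rw [add_assoc]; exact le_add_of_nonneg_right (by positivity)) ?_ h3 h4
    · have h5 : ∑ σ, q N σ * ∑ z, w z * u z σ = 0 := by
        simp only [mul_sum, mul_left_comm (q N _)]
        rw [sum_comm]
        exact sum_eq_zero fun z _ => by rw [← mul_sum, h0, mul_zero]
      rw [← add_zero (∑ σ, q N σ), ← h5, ← sum_add_distrib]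
      exact sum_le_sum fun σ _ => by
        rw [← hw']
        linarith [mul_le_mul_of_nonneg_left (add_one_le_exp (∑ z, w z * u z σ)) (hq N σ)]
    · rw [show (14 / c ^ 2 + 20 / c + 4 * θ * k / c) * c / 4 = 7 / (2 * c) + 5 + θ * k by
        field_simp; ring, exp_add]
      refine mul_le_mul_of_nonneg_right (le_trans ?_ (exp_le_exp.2
        (le_add_of_nonneg_left (by positivity)))) (exp_pos _).le
      have := pow_le_pow_left₀ (by norm_num) exp_one_gt_d9.le 5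
      rw [← exp_nat_mul, mul_one, Nat.cast_ofNat] at this
      exact le_trans (by norm_num) this
  · have h3 : ∀ σ, ∑ P : Fin k → Z × Z, O u l P σ ^ p ≤ Fintype.card (Fin k → Z × Z) *
        (exp (2 * d * k) + 2 ^ k / d ^ 3 * max (Yv u σ - d) 0 ^ 3) := fun σ => by
      simp only [O_pow, hp]
      refine (sum_O_le hu abs_one.le σ).trans (mul_le_mul_of_nonneg_left ?_ (Nat.cast_nonneg _))
      rw [one_pow, one_mul]
      exact pow_le d0 (Y_nonneg σ) (Y_le hu σ) k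
    refine (sum_le_sum fun σ _ => mul_le_mul_of_nonneg_left (h3 σ)
      (sum_nonneg fun N _ => hq N σ)).trans ?_
    simp only [mul_left_comm _ (Fintype.card (Fin k → Z × Z) : ℝ), ← mul_sum]
    refine mul_le_mul_of_nonneg_left ?_ (Nat.cast_nonneg _)
    rw [e, e', mul_sum]
    refine sum_le_sum fun N hN => ?_
    have h4 := mul_le_mul_of_nonneg_left (hY N (Nat.lt_succ_iff.1 (mem_range.1 hN)))
      (show 0 ≤ 2 ^ k / d ^ 3 by positivity)
    have h5 := mul_le_mul_of_nonneg_right (ε3.trans (one_le_exp (show 0 ≤ 2 * d * k by positivity)))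
      (hZ.nonneg N)
    simp only [mul_add, sum_add_distrib, ← sum_mul, mul_left_comm (q N _), ← mul_sum]
    linarith
  · simp only [O_pow, Nat.cast_ofNat]
    refine (sum_O_le hu (by rwa [abs_of_pos (by positivity)]) σ).trans
      (mul_le_mul_of_nonneg_left ?_ (Nat.cast_nonneg _))
    rw [mul_comm _ (k : ℝ), exp_nat_mul]
    have := mul_le_of_le_one_right (sq_nonneg (2 * l)) (Y_le hu σ)
    exact pow_le_pow_left₀ (add_nonneg zero_le_one (mul_nonneg (sq_nonneg _) (Y_nonneg σ)))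
      (by linarith [add_one_le_exp ((2 * l) ^ 2)]) k
  · rw [mul_left_comm, ← exp_add, ← exp_nat_mul]
    exact mul_le_mul_of_nonneg_left (exp_le_exp.2
      (by linarith [mul_le_mul_of_nonneg_right h1 k.cast_nonneg])) zero_le_two

end Crest.Agent.N337.C
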