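import Crest.Agent.N337.C.Defs
import Crest.Agent.N337.Slot.Sym
import Crest.Agent.N337.Slot.Slot_Mg

-- ▼ part N337/C/MoA
section

/-!
# Row 337, C-Model, part A: real matrices (helper88)
-/

set_option autoImplicit false
set_option linter.unusedSectionVars false

namespace Crest.Agent.N337.C.Mo

open Matrix NormedSpace Crest.Agent.N337.Slot Crest.Agent.N337.Slot.SL

section mat
variable {m k : Type} [Fintype m] [Fintype k] [DecidableEq m] [DecidableEq k]

theorem psd_tmul (A : Matrix k m ℝ) : (Aᵀ * A).PosSemidef := by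
  have := posSemidef_conjTranspose_mul_self A
  rwa [conjTranspose_eq_transpose_of_trivial] at this

theorem psd_conj {A : Matrix k k ℝ} (h : A.PosSemidef) (B : Matrix k m ℝ) :
    (Bᵀ * A * B).PosSemidef := by
  have := h.conjTranspose_mul_mul_same B
  rwa [conjTranspose_eq_transpose_of_trivial] at this


open scoped MatrixOrder in
theorem tr_nonneg {A B : Matrix m m ℝ} (hA : A.PosSemidef) (hB : B.PosSemidef) :
    0 ≤ (A * B).trace := by
  obtain ⟨C, rfl⟩ := CStarAlgebra.nonneg_iff_eq_star_mul_self.mp hA.nonneg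
  rw [Matrix.mul_assoc, trace_mul_comm]
  exact (hB.mul_mul_conjTranspose_same C).trace_nonneg

open scoped Matrix.Norms.Operator in
theorem exp_inter {A : Matrix m m ℝ} {B : Matrix k k ℝ} {U : Matrix m k ℝ} (h : A * U = U * B) :
    exp A * U = U * exp B := by
  have hp : ∀ j : ℕ, A ^ j * U = U * B ^ j := fun j => by
    induction j with
    | zero => simp
    | succ j ih => rw [pow_succ', pow_succ', Matrix.mul_assoc, ih, ← Matrix.mul_assoc, h,
        Matrix.mul_assoc]
  have h1 := (exp_series_hasSum_exp' (𝕂 := ℝ) A).map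
    (AddMonoidHom.mk' (fun M : Matrix m m ℝ => M * U) fun a b => Matrix.add_mul a b U)
    (continuous_id.matrix_mul continuous_const)
  have h2 := (exp_series_hasSum_exp' (𝕂 := ℝ) B).map
    (AddMonoidHom.mk' (fun M : Matrix k k ℝ => U * M) fun a b => Matrix.mul_add U a b)
    (continuous_const.matrix_mul continuous_id)
  have h3 : HasSum (fun j : ℕ => ((j.factorial : ℝ)⁻¹ • A ^ j) * U) (exp A * U) := h1
  have h4 : HasSum (fun j : ℕ => U * ((j.factorial : ℝ)⁻¹ • B ^ j)) (U * exp B) := h2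
  simp only [Matrix.smul_mul, Matrix.mul_smul, hp] at h3 h4
  exact h3.unique h4

theorem exists_diag {G : Matrix m m ℝ} (h : Gᵀ = G) :
    ∃ (Q : Matrix m m ℝ) (d : m → ℝ), Q * Qᵀ = 1 ∧ G * Q = Q * diagonal d := by
  have hG : G.IsHermitian := by
    rw [IsHermitian, conjTranspose_eq_transpose_of_trivial, h]
  have h1 := hG.spectral_theorem
  rw [Unitary.conjStarAlgAut_apply] at h1
  have e : star (hG.eigenvectorUnitary : Matrix m m ℝ) = (hG.eigenvectorUnitary : Matrix m m ℝ)ᵀ :=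
    conjTranspose_eq_transpose_of_trivial _
  refine ⟨hG.eigenvectorUnitary, hG.eigenvalues, ?_, ?_⟩
  · rw [← e]; exact Unitary.mul_star_self_of_mem hG.eigenvectorUnitary.2
  · have h2 := congrArg (· * (hG.eigenvectorUnitary : Matrix m m ℝ)) h1
    simp only [Matrix.mul_assoc] at h2
    rw [Unitary.star_mul_self_of_mem hG.eigenvectorUnitary.2, Matrix.mul_one] at h2
    exact h2

/-- `-G e^{βG} ≤ a e^{βG} + (2/β) e^{-βa/2}` -/
theorem psd_energy {G : Matrix m m ℝ} (h : Gᵀ = G) {β a : ℝ} (hβ : 0 < β) (ha : 0 ≤ a) :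
    (a • exp (β • G) + (2 / β * Real.exp (-(β * a / 2))) • (1 : Matrix m m ℝ)
      + exp (β • G) * G).PosSemidef := by
  obtain ⟨Q, d, hQ, hd⟩ := exists_diag h
  have h1 : exp (β • G) * Q = Q * diagonal fun i => Real.exp (β * d i) := by
    rw [exp_inter (B := diagonal fun i => β * d i), Matrix.exp_diagonal]
    · congr 2; funext i; rw [Pi.coe_exp, Real.exp_eq_exp_ℝ]
    · rw [Matrix.smul_mul, hd, ← Matrix.mul_smul, ← Matrix.diagonal_smul]; rfl
  have h2 : (a • exp (β • G) + (2 / β * Real.exp (-(β * a / 2))) • (1 : Matrix m m ℝ)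
      + exp (β • G) * G) = Qᵀᵀ * diagonal (fun i => a * Real.exp (β * d i) +
        2 / β * Real.exp (-(β * a / 2)) + Real.exp (β * d i) * d i) * Qᵀ := by
    rw [← Matrix.mul_one (_ + _), ← hQ, ← Matrix.mul_assoc, transpose_transpose]
    congr 1
    rw [hQ, Matrix.add_mul, Matrix.add_mul, Matrix.smul_mul, Matrix.smul_mul, Matrix.mul_assoc, hd,
      ← Matrix.mul_assoc, h1, Matrix.one_mul, Matrix.mul_assoc, diagonal_mul_diagonal]
    ext i j
    simp only [Matrix.add_apply, Matrix.smul_apply, Matrix.mul_diagonal, smul_eq_mul]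
    ring
  rw [h2]
  refine psd_conj (PosSemidef.diagonal fun i => ?_) _
  have e0 := Real.exp_pos (β * d i)
  have c0 : 0 < 2 / β * Real.exp (-(β * a / 2)) := by positivity
  show 0 ≤ a * Real.exp (β * d i) + 2 / β * Real.exp (-(β * a / 2)) + Real.exp (β * d i) * d i
  rcases le_total (-a) (d i) with hx | hx
  · nlinarith [mul_nonneg e0.le (show 0 ≤ a + d i by linarith)]
  · have b1 : -(β * d i / 2) ≤ Real.exp (-(β * d i / 2)) := by
      linarith [Real.add_one_le_exp (-(β * d i / 2))]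
    have b2 : Real.exp (β * d i) * Real.exp (-(β * d i / 2)) ≤ Real.exp (-(β * a / 2)) := by
      rw [← Real.exp_add]
      exact Real.exp_le_exp.2 (by nlinarith)
    have b3 := (mul_le_mul_of_nonneg_left b1 e0.le).trans b2
    have b4 := mul_le_mul_of_nonneg_left b3 (show 0 ≤ 2 / β by positivity)
    have b5 : 2 / β * (Real.exp (β * d i) * -(β * d i / 2)) = -(Real.exp (β * d i) * d i) := by
      field_simp
    have b6 := mul_nonneg ha e0.le
    linarith

/-- the seminorm `|A|² = tr (ρ Aᵀ A)` -/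
def sn (ρ A : Matrix m m ℝ) : ℝ := (ρ * (Aᵀ * A)).trace

theorem sn_nonneg {ρ : Matrix m m ℝ} (h : ρ.PosSemidef) (A : Matrix m m ℝ) : 0 ≤ sn ρ A :=
  tr_nonneg h (psd_tmul A)

theorem sn_add {ρ : Matrix m m ℝ} (h : ρ.PosSemidef) (A B : Matrix m m ℝ) {s : ℝ} (hs : 0 < s) :
    sn ρ (A + B) ≤ (1 + s) * sn ρ A + (1 + 1 / s) * sn ρ B := by
  have h0 := sn_nonneg h (s • A - B)
  simp only [sn, transpose_add, transpose_sub, transpose_smul, Matrix.add_mul, Matrix.mul_add,
    Matrix.sub_mul, Matrix.mul_sub, Matrix.smul_mul, Matrix.mul_smul, trace_add, trace_sub,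
    trace_smul, smul_eq_mul] at h0 ⊢
  have h1 := mul_nonneg (one_div_pos.2 hs).le h0
  have e : 1 / s * s = 1 := one_div_mul_cancel hs.ne'
  set a := (ρ * (Aᵀ * A)).trace
  set b := (ρ * (Bᵀ * A)).trace
  set c := (ρ * (Aᵀ * B)).trace
  set d := (ρ * (Bᵀ * B)).trace
  have : 1 / s * (s * (s * a - b) - (s * c - d)) = s * a - b - c + 1 / s * d := by
    linear_combination (s * a - b - c) * e
  linarith

theorem sn_orth (ρ A : Matrix m m ℝ) {T : Matrix m m ℝ} (hT : Tᵀ * T = 1) :
    sn ρ (T * A) = sn ρ A := by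
  rw [sn, sn, transpose_mul, Matrix.mul_assoc Aᵀ, ← Matrix.mul_assoc Tᵀ, hT, Matrix.one_mul]

end mat

section swap
variable {Λ : Type} [Fintype Λ] [DecidableEq Λ]

/-- the energy of a pair of slots -/
def tt (ρ : BOp Λ) (x y : Λ) : ℝ := (ρ * (1 - swp x y)).trace

theorem swp_orth (x y : Λ) : (swp x y)ᵀ * swp x y = 1 := by rw [swp_transpose, swp_mul_self]

theorem sn_swp (ρ : BOp Λ) (x y : Λ) : sn ρ (1 - swp x y) = 2 * tt ρ x y := by
  have : (1 - swp x y)ᵀ * (1 - swp x y) = (2 : ℝ) • (1 - swp x y : BOp Λ) := by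
    rw [transpose_sub, transpose_one, swp_transpose, Matrix.sub_mul, Matrix.mul_sub,
      Matrix.mul_sub, swp_mul_self, Matrix.one_mul, Matrix.one_mul, Matrix.mul_one, two_smul]
    abel
  rw [sn, this, Matrix.mul_smul, trace_smul, smul_eq_mul, tt]

theorem tt_nonneg {ρ : BOp Λ} (h : ρ.PosSemidef) (x y : Λ) : 0 ≤ tt ρ x y := by
  have := sn_nonneg h (1 - swp x y)
  rw [sn_swp] at this
  linarith

theorem tt_comm (ρ : BOp Λ) (x y : Λ) : tt ρ x y = tt ρ y x := by rw [tt, swp_comm, tt]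

theorem tt_self (ρ : BOp Λ) (x : Λ) : tt ρ x x = 0 := by simp [tt, swp_self]

theorem tt_tri {ρ : BOp Λ} (h : ρ.PosSemidef) (x y z : Λ) {s : ℝ} (hs : 0 < s) :
    tt ρ x z ≤ (1 + s) * tt ρ x y + 4 * (1 + 1 / s) * tt ρ y z := by
  have h1 := tt_nonneg h x y
  have h2 := tt_nonneg h y z
  have s1 : 0 < 1 / s := one_div_pos.2 hs
  by_cases hxz : x = z
  · rw [hxz, tt_self]; rw [hxz] at h1; positivity
  by_cases hxy : x = y
  · rw [hxy, tt_self]; nlinarith [mul_nonneg s1.le h2]
  have e1 : swp y z * swp x y = swp x z * swp y z := by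
    rw [swp_conj, Equiv.swap_apply_of_ne_of_ne hxy hxz, Equiv.swap_apply_left]
  have e2 : 1 - swp x z = swp y z * (1 - swp x y) +
      ((1 - swp y z) + swp y z * (swp x y * (1 - swp y z))) := by
    have : swp y z * (swp x y * swp y z) = swp x z := by
      rw [← Matrix.mul_assoc, e1, Matrix.mul_assoc, swp_mul_self, Matrix.mul_one]
    simp only [Matrix.mul_sub, Matrix.mul_one, this]
    abel
  have h3 := sn_add h (swp y z * (1 - swp x y))
    ((1 - swp y z) + swp y z * (swp x y * (1 - swp y z))) hs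
  have h4 := sn_add h (1 - swp y z) (swp y z * (swp x y * (1 - swp y z))) one_pos
  rw [← e2, sn_orth _ _ (swp_orth y z), sn_swp, sn_swp] at h3
  rw [sn_orth _ _ (swp_orth y z), sn_orth _ _ (swp_orth x y), sn_swp] at h4
  have h5 := mul_le_mul_of_nonneg_left h4 (show 0 ≤ 1 + 1 / s by linarith)
  linarith

/-- the block energy through a base slot -/
theorem block_le {ρ : BOp Λ} (h : ρ.PosSemidef) {a : Λ → ℝ} (a0 : ∀ s, 0 ≤ a s)
    (a1 : ∑ s, a s = 1) (b : Λ) : (ρ * (1 - Sq a)).trace ≤ 10 * ∑ s, a s * tt ρ b s := by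
  have e : (1 : BOp Λ) - Sq a = ∑ s, ∑ s', (a s * a s') • (1 - swp s s') := by
    simp only [smul_sub, Finset.sum_sub_distrib, ← Finset.sum_smul, ← Finset.mul_sum, a1, mul_one,
      one_smul, Sq]
  rw [e]
  simp only [Matrix.mul_sum, trace_sum, Matrix.mul_smul, trace_smul, smul_eq_mul]
  have h1 : ∀ s s', a s * a s' * (ρ * (1 - swp s s')).trace ≤
      2 * (a s * tt ρ b s) * a s' + 8 * (a s * (a s' * tt ρ b s')) := fun s s' => by
    have h2 := tt_tri h s b s' one_pos
    rw [tt_comm ρ s b] at h2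
    have h3 := mul_le_mul_of_nonneg_left h2 (mul_nonneg (a0 s) (a0 s'))
    unfold tt at h3 ⊢
    linarith
  refine (Finset.sum_le_sum fun s _ => Finset.sum_le_sum fun s' _ => h1 s s').trans (le_of_eq ?_)
  simp only [Finset.sum_add_distrib, ← Finset.mul_sum, ← Finset.sum_mul, a1]
  ring

end swap

end Crest.Agent.N337.C.Mo
end

-- ▼ part N337/C/MoB

/-!
# Row 337, C-Model, part B: the Gibbs weight of the slot model (helper88)
-/

set_option autoImplicit false
set_option linter.unusedSectionVars false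

namespace Crest.Agent.N337.C.Mo

open Matrix NormedSpace Crest.Agent.N337.Slot Crest.Agent.N337.Slot.SL Crest.MathPhysics.SpinModel
  Filter Topology Crest.Agent.N337.KV

variable {X : Type} [Fintype X] [DecidableEq X] {n : ℕ} {J : X → X → ℝ}

/-- the generator -/
noncomputable def GG (n : ℕ) (J : X → X → ℝ) : BOp (X × Fin n) :=
  gen (fun u v : X × Fin n => J u.1 v.1 / 2) 0

/-- the symmetriser -/
noncomputable def PP (X : Type) [Fintype X] [DecidableEq X] (n : ℕ) : BOp (X × Fin n) :=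
  UU X n * (UU X n)ᵀ

/-- the Gibbs weight -/
noncomputable def WW (n : ℕ) (J : X → X → ℝ) (β : ℝ) : BOp (X × Fin n) :=
  PP X n * exp (β • GG n J)

theorem UU_ham (hJ : Ferro J) : ∃ c0 : ℝ, cx (UU X n) * hamF n J 0 =
    cx (c0 • (1 : BOp (X × Fin n)) - GG n J) * cx (UU X n) := by
  refine ⟨-(∑ u : X × Fin n, ∑ v : X × Fin n, J u.1 v.1 / 8) - 0 * (Fintype.card X * (n / 2)), ?_⟩
  unfold GG cx
  rw [← real_ham hJ 0]
  let φ : BOp (X × Fin n) →ₐ[ℝ] Matrix (X × Fin n → Bool) (X × Fin n → Bool) ℂ :=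
    Complex.ofRealAm.mapMatrix
  have hφ : ∀ M : BOp (X × Fin n), M.map ((↑) : ℝ → ℂ) = φ M := fun M => rfl
  have e1 : (1 / 2 : ℂ) = ((1 / 2 : ℝ) : ℂ) := by push_cast; rfl
  have hZ := UU_Sz (X := X) (n := n)
  have hP := UU_Sp (X := X) (n := n)
  have hM := UU_Sm (X := X) (n := n)
  simp only [hφ] at hZ hP hM ⊢
  have hD : ∀ x y : X, (UU X n).map ((↑) : ℝ → ℂ) * spinDotOn n x y =
      φ ((∑ i : Fin n, sz (x, i)) * (∑ i : Fin n, sz (y, i)) + (1 / 2 : ℝ) •
        ((∑ i : Fin n, an (x, i)) * (∑ i : Fin n, cr (y, i)) +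
          (∑ i : Fin n, cr (x, i)) * (∑ i : Fin n, an (y, i)))) * (UU X n).map ((↑) : ℝ → ℂ) := by
    intro x y
    change (UU X n).map ((↑) : ℝ → ℂ) * (Sz n x * Sz n y + (1 / 2 : ℂ) •
      (Sp n x * Sm n y + Sm n x * Sp n y)) = _
    rw [map_add, map_smul, map_add, map_mul, map_mul, map_mul, e1, Complex.coe_smul]
    simp only [Matrix.mul_add, Matrix.add_mul, Matrix.mul_smul, Matrix.smul_mul]
    rw [← Matrix.mul_assoc, ← Matrix.mul_assoc, ← Matrix.mul_assoc, hZ, hP, hM,
      Matrix.mul_assoc, Matrix.mul_assoc, Matrix.mul_assoc, hZ, hP, hM]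
    simp only [Matrix.mul_assoc]
  rw [hamF, ham, magn, e1, ← Complex.ofReal_neg, Complex.coe_smul, Complex.coe_smul, map_sub,
    map_smul, map_smul, map_sum, map_sum]
  simp only [Matrix.mul_sub, Matrix.sub_mul, Matrix.mul_smul, Matrix.smul_mul, Matrix.mul_sum,
    Matrix.sum_mul, hZ, Complex.coe_smul, hD]
  congr 2
  refine Finset.sum_congr rfl fun x _ => ?_
  rw [map_sum, Matrix.sum_mul]
  refine Finset.sum_congr rfl fun y _ => ?_
  rw [map_smul φ (J x y), Matrix.smul_mul]

theorem GG_eq : GG n J = ∑ u : X × Fin n, ∑ v : X × Fin n, (J u.1 v.1 / 2 / 2) • (swp u v - 1) := by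
  simp [GG, gen]

theorem GG_symm : (GG n J)ᵀ = GG n J := by
  simp only [GG_eq, transpose_sum, transpose_smul, transpose_sub, swp_transpose, transpose_one]

theorem cx_inj {m k : Type} {A B : Matrix m k ℝ} (h : cx A = cx B) : A = B :=
  Matrix.map_injective Complex.ofReal_injective h

theorem inter (hJ : Ferro J) : ∃ (c0 : ℝ) (G' : Matrix (X → Fin (n + 1)) (X → Fin (n + 1)) ℝ),
    G'ᵀ = G' ∧ GG n J * UU X n = UU X n * G' ∧ hamF n J 0 = cx (c0 • 1 - G') := by
  obtain ⟨c0, h⟩ := UU_ham (n := n) hJ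
  have h1 : hamF n J 0 = cx (c0 • 1 - (UU X n)ᵀ * GG n J * UU X n) := by
    have e : cx (UU X n)ᵀ * cx (UU X n) = 1 := by
      rw [← Lm.cx_mul, UU_iso]; exact Matrix.map_one _ (by simp) (by simp)
    rw [← Matrix.one_mul (hamF n J 0), ← e, Matrix.mul_assoc, h, ← Lm.cx_mul, ← Lm.cx_mul,
      Matrix.sub_mul, Matrix.mul_sub, Matrix.smul_mul, Matrix.one_mul, Matrix.mul_smul, UU_iso,
      Matrix.mul_assoc]
  refine ⟨c0, _, ?_, ?_, h1⟩
  · rw [transpose_mul, transpose_mul, transpose_transpose, GG_symm, Matrix.mul_assoc]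
  · rw [h1, ← Lm.cx_mul, ← Lm.cx_mul] at h
    have h2 := cx_inj h
    rw [Matrix.mul_sub, Matrix.sub_mul, Matrix.mul_smul, Matrix.smul_mul, Matrix.mul_one,
      Matrix.one_mul] at h2
    exact (sub_right_inj.1 h2).symm

theorem PP_symm : (PP X n)ᵀ = PP X n := by rw [PP, transpose_mul, transpose_transpose]

theorem PP_sq : PP X n * PP X n = PP X n := by
  rw [PP, Matrix.mul_assoc, ← Matrix.mul_assoc _ (UU X n), UU_iso, Matrix.one_mul]

theorem PP_comm (hJ : Ferro J) : Commute (PP X n) (GG n J) := by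
  obtain ⟨c0, G', h1, h2, -⟩ := inter (n := n) hJ
  have h3 := congrArg transpose h2
  rw [transpose_mul, transpose_mul, GG_symm, h1] at h3
  show PP X n * GG n J = GG n J * PP X n
  rw [PP, Matrix.mul_assoc, h3, ← Matrix.mul_assoc, ← h2, Matrix.mul_assoc]

theorem comm_exp {A : BOp (X × Fin n)} (h : Commute A (GG n J)) (t : ℝ) :
    Commute A (exp (t • GG n J)) :=
  (exp_inter (h.smul_right t).symm.eq).symm

theorem exp_half (β : ℝ) :
    exp (β • GG n J) = exp ((β / 2) • GG n J) * exp ((β / 2) • GG n J) := by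
  rw [← Matrix.exp_add_of_commute _ _ (Commute.refl _), ← add_smul, add_halves]

theorem exp_symm (t : ℝ) : (exp (t • GG n J))ᵀ = exp (t • GG n J) := by
  rw [← Matrix.exp_transpose, transpose_smul, GG_symm]

theorem comm_PP {R : BOp (X × Fin n)} (h : ∀ s s', Commute R (swp s s')) : Commute R (PP X n) := by
  obtain ⟨w, -, hw⟩ := UU_sym (X := X) (n := n)
  rw [PP, hw]
  exact commute_wp R w fun _ _ => h _ _

theorem comm_GG {R : BOp (X × Fin n)} (h : ∀ s s', Commute R (swp s s')) : Commute R (GG n J) := by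
  rw [GG_eq]
  exact Commute.sum_right _ _ _ fun u _ => Commute.sum_right _ _ _ fun v _ =>
    ((h u v).sub_right (Commute.one_right R)).smul_right _

theorem RP_psd {R : BOp (X × Fin n)} (hR : R.PosSemidef) (h : ∀ s s', Commute R (swp s s')) :
    (R * PP X n).PosSemidef := by
  have := psd_conj hR (PP X n)
  rwa [PP_symm, ← (comm_PP h).eq, Matrix.mul_assoc, PP_sq] at this

theorem RW_psd (hJ : Ferro J) (β : ℝ) {R : BOp (X × Fin n)} (hR : R.PosSemidef)
    (h : ∀ s s', Commute R (swp s s')) : (R * WW n J β).PosSemidef := by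
  have := psd_conj (RP_psd hR h) (exp ((β / 2) • GG n J))
  rwa [exp_symm, ← (comm_exp ((comm_GG h).mul_left (PP_comm hJ)) (β / 2)).eq, Matrix.mul_assoc,
    ← exp_half, Matrix.mul_assoc] at this

theorem tt_site (hJ : Ferro J) (β : ℝ) (R : BOp (X × Fin n)) {u v : X × Fin n} (h : u.1 = v.1) :
    tt (R * WW n J β) u v = 0 := by
  have h1 : PP X n * swp u v = PP X n := by
    have := congrArg transpose (swp_UU h)
    rw [transpose_mul, swp_transpose] at this
    rw [PP, Matrix.mul_assoc, this]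
  rw [tt, WW, (comm_exp (PP_comm hJ) β).eq, Matrix.mul_assoc, Matrix.mul_assoc, Matrix.mul_sub,
    h1, Matrix.mul_one, sub_self, Matrix.mul_zero, Matrix.mul_zero, trace_zero]

open scoped Matrix.Norms.Operator in
theorem good (hJ : Ferro J) {β : ℝ} (hβ : 0 < β) : Good (WW n J β) := by
  refine ⟨by simpa using RW_psd hJ β PosSemidef.one fun _ _ => Commute.one_left _, ?_⟩
  set r : X × Fin n → X × Fin n → ℝ := fun u v => J u.1 v.1 / 2 with hr
  have hF0 : sweep r 0 = 1 := by
    have : ∀ x y : X × Fin n, step x y 0 = 1 := fun x y => by simp [step]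
    simp [sweep, this]
  have hF : HasDerivAt (sweep r) (GG n J) 0 := by
    have h2 := Lm.deriv_list (prs (X × Fin n)) fun q => (r q.1 q.2 / 2) • (swp q.1 q.2 - 1)
    have e : ∀ d, sweep r d = ((prs (X × Fin n)).map fun q =>
        1 + d • (r q.1 q.2 / 2) • (swp q.1 q.2 - 1)).reverse.prod := fun d => by
      unfold sweep
      congr 3
      funext q
      rw [step, smul_smul, smul_sub, sub_smul, one_smul, mul_div_assoc]; abel
    simp only [← e] at h2
    refine HasDerivAt.congr_deriv h2 ?_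
    rw [prs, Finset.sum_map_toList, Fintype.sum_prod_type, GG_eq]
  have hlim := (Lm.lim_one hF0 hF hβ).const_mul (PP X n)
  refine mem_closure_of_tendsto hlim ?_
  have hP : PP X n ∈ Adm0 (X × Fin n) := by
    obtain ⟨w, hw0, hw⟩ := UU_sym (X := X) (n := n)
    rw [PP, hw]
    refine list_prod_mem fun M hM => ?_
    obtain ⟨q, hq, rfl⟩ := List.mem_map.1 hM
    exact Submonoid.subset_closure ⟨_, _, _, (hw0 q hq).1, (hw0 q hq).2, rfl⟩
  have hev : ∀ᶠ M : ℕ in atTop, ∀ q : (X × Fin n) × (X × Fin n), β / M * r q.1 q.2 / 2 ≤ 1 := by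
    refine eventually_all.2 fun q => ?_
    have := (((tendsto_const_div_atTop_nhds_zero_nat β).mul_const (r q.1 q.2)).div_const 2)
    rw [zero_mul, zero_div] at this
    exact this.eventually_le_const one_pos
  filter_upwards [hev] with M hM
  refine mul_mem hP (pow_mem (list_prod_mem fun A hA => ?_) M)
  obtain ⟨q, -, rfl⟩ := List.mem_map.1 (List.mem_reverse.1 hA)
  refine Submonoid.subset_closure ⟨_, _, _, ?_, hM q, rfl⟩
  have := hJ.nonneg q.1.1 q.2.1
  positivity

theorem sec_UU (N : ℕ) : (sec N : BOp (X × Fin n)) * UU X n =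
    UU X n * (diagonal fun σ => if ∑ x, (n - (σ x : ℕ)) = N then (1 : ℝ) else 0 :
      Matrix (X → Fin (n + 1)) (X → Fin (n + 1)) ℝ) := by
  ext η σ
  rw [sec, diagonal_mul, mul_diagonal, mul_comm]
  by_cases h : UU X n η σ = 0
  · simp [h]
  · have h1 : ∀ x, dn η x + σ x = n := fun x => by
      by_contra hx
      exact h (Finset.prod_eq_zero (Finset.mem_univ x) (if_neg hx))
    have h2 : cnt η = ∑ x, (n - (σ x : ℕ)) := by
      have : cnt η = ∑ x, dn η x := by exact_mod_cast cnt_eq η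
      rw [this]
      exact Finset.sum_congr rfl fun x _ => by have := h1 x; omega
    rw [h2]

open scoped Matrix.Norms.Operator in
theorem cx_exp {m : Type} [Fintype m] [DecidableEq m] (A : Matrix m m ℝ) :
    cx (exp A) = exp (cx A) :=
  NormedSpace.map_exp (Complex.ofRealHom.mapMatrix : Matrix m m ℝ →+* Matrix m m ℂ)
    (continuous_id.matrix_map Complex.continuous_ofReal) A

theorem Zs_WW (hJ : Ferro J) (β : ℝ) :
    ∃ k : ℝ, 0 < k ∧ ∀ N, Zs (WW n J β) N = k * Zc n J β N := by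
  obtain ⟨c0, G', -, h2, h3⟩ := inter (n := n) hJ
  refine ⟨Real.exp (β * c0), Real.exp_pos _, fun N => ?_⟩
  have h4 : exp (β • GG n J) * UU X n = UU X n * exp (β • G') :=
    exp_inter (by rw [Matrix.smul_mul, h2, Matrix.mul_smul])
  have h5 : W n J 0 β = cx (Real.exp (-(β * c0)) • exp (β • G')) := by
    have e1 : (-(β : ℂ)) • hamF n J 0 = cx (diagonal (fun _ => -(β * c0)) + β • G') := by
      rw [h3]
      ext i j
      by_cases hij : i = j
      · subst hij; simp; ring
      · simp [hij]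
    have e2 : Commute (diagonal (fun _ : X → Fin (n + 1) => -(β * c0))) (β • G') := by
      rw [← smul_one_eq_diagonal]
      exact (Commute.one_left _).smul_left _
    rw [W, e1, ← cx_exp, Matrix.exp_add_of_commute _ _ e2, Matrix.exp_diagonal]
    congr 1
    ext i j
    rw [diagonal_mul, Pi.coe_exp, ← Real.exp_eq_exp_ℝ]
    rfl
  rw [Zs, WW, PP, ← Matrix.mul_assoc, ← Matrix.mul_assoc, sec_UU, Matrix.mul_assoc,
    Matrix.mul_assoc, trace_mul_comm, Matrix.mul_assoc, Matrix.mul_assoc, h4, ← Matrix.mul_assoc _ (UU X n),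
    UU_iso, Matrix.one_mul, Zc, Finset.mul_sum, trace]
  refine Finset.sum_congr rfl fun σ _ => ?_
  rw [diag_apply, diagonal_mul, h5]
  split_ifs
  · simp only [Matrix.map_apply, Matrix.smul_apply, smul_eq_mul, Complex.ofReal_re]
    rw [← mul_assoc, ← Real.exp_add, add_neg_cancel, Real.exp_zero]
  · simp

/-- the energy bound -/
theorem energy (hJ : Ferro J) {β : ℝ} (hβ : 0 < β) {R : BOp (X × Fin n)} (hR : R.PosSemidef)
    (hR' : (1 - R).PosSemidef) (h : ∀ s s', Commute R (swp s s')) :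
    ∑ u : X × Fin n, ∑ v : X × Fin n, J u.1 v.1 * tt (R * WW n J β) u v ≤
      8 * (Fintype.card X * n) / β * (R * WW n J β).trace + 8 / β := by
  set N : ℕ := Fintype.card X * n with hN
  have l0 : 0 ≤ Real.log 2 := Real.log_nonneg one_le_two
  have l1 : Real.log 2 ≤ 1 := by linarith [Real.log_two_lt_d9]
  have h1 := tr_nonneg (RP_psd hR h) (psd_energy (GG_symm (n := n) (J := J))
    (a := 2 * (N * Real.log 2) / β) hβ (by positivity))
  have e1 : Real.exp (-(β * (2 * (N * Real.log 2) / β) / 2)) = ((2 : ℝ) ^ N)⁻¹ := by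
    rw [show β * (2 * (N * Real.log 2) / β) / 2 = N * Real.log 2 by field_simp, Real.exp_neg,
      Real.exp_nat_mul, Real.exp_log two_pos]
  have h2 : (R * PP X n).trace ≤ 2 ^ N := by
    have a1 := tr_nonneg hR' (RP_psd (X := X) (n := n) PosSemidef.one fun _ _ => Commute.one_left _)
    have a2 : (1 - PP X n).PosSemidef := by
      have := psd_tmul (1 - PP X n)
      rwa [transpose_sub, transpose_one, PP_symm, Matrix.sub_mul, Matrix.mul_sub, Matrix.mul_sub,
        PP_sq, Matrix.one_mul, Matrix.one_mul, Matrix.mul_one, sub_self, sub_zero] at this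
    have a3 := a2.trace_nonneg
    rw [Matrix.one_mul, Matrix.sub_mul, Matrix.one_mul, trace_sub] at a1
    rw [trace_sub, trace_one, Fintype.card_fun, Fintype.card_bool, Fintype.card_prod,
      Fintype.card_fin, ← hN] at a3
    push_cast at a3
    linarith
  have h3 : (R * PP X n * (exp (β • GG n J) * GG n J)).trace =
      -(1 / 4 * ∑ u : X × Fin n, ∑ v : X × Fin n, J u.1 v.1 * tt (R * WW n J β) u v) := by
    rw [← Matrix.mul_assoc, Matrix.mul_assoc R, ← WW]
    generalize R * WW n J β = ρ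
    rw [GG_eq]
    simp only [trace_sum, Matrix.mul_smul, trace_smul, smul_eq_mul,
      Finset.mul_sum, ← Finset.sum_neg_distrib, tt, Matrix.mul_sub, trace_sub]
    exact Finset.sum_congr rfl fun u _ => Finset.sum_congr rfl fun v _ => by ring
  rw [Matrix.mul_add, Matrix.mul_add, trace_add, trace_add, h3, e1, Matrix.mul_smul,
    Matrix.mul_smul, trace_smul, trace_smul, Matrix.mul_one, Matrix.mul_assoc, ← WW, smul_eq_mul,
    smul_eq_mul] at h1
  have h4 := (RW_psd hJ β hR h).trace_nonneg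
  have h5 : 2 / β * ((2 : ℝ) ^ N)⁻¹ * (R * PP X n).trace ≤ 2 / β := by
    rw [mul_assoc]
    refine mul_le_of_le_one_right (by positivity) ?_
    rw [inv_mul_le_iff₀ (by positivity), mul_one]
    exact h2
  have h6 : 2 * (N * Real.log 2) / β * (R * WW n J β).trace ≤ 2 * N / β * (R * WW n J β).trace := by
    refine mul_le_mul_of_nonneg_right (div_le_div_of_nonneg_right ?_ hβ.le) h4
    nlinarith [Nat.cast_nonneg (α := ℝ) N]
  have e2 : (Fintype.card X * n : ℝ) = N := by rw [hN]; push_cast; rfl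
  rw [e2]
  have e3 : 8 * (N : ℝ) / β * (R * WW n J β).trace = 4 * (2 * N / β * (R * WW n J β).trace) := by
    ring
  have e4 : 8 / β = 4 * (2 / β) := by ring
  linarith

end Crest.Agent.N337.C.Mo
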