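import Crest.Agent.N337.C.Defs
import Crest.Agent.N337.Basic
import Crest.Agent.N337.C.MoB
import Crest.Agent.N337.Free.Tor
import Crest.Agent.N337.Asy.Basic

-- ▼ part N337/C/Rot
section

/-!
# Row 337, S0527: rotation invariance (`RotStmt`)
-/

set_option autoImplicit false

namespace Crest.Agent.N337.C

open Crest.MathPhysics.SpinModel Matrix NormedSpace

namespace Ro

/-- `e^A X e^{-A}` when the third commutator vanishes. -/
theorem exp_ad {𝔸 : Type*} [NormedRing 𝔸] [NormedAlgebra ℂ 𝔸] [NormedAlgebra ℚ 𝔸] [CompleteSpace 𝔸]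
    {A X Y Z : 𝔸}
    (h1 : A * X - X * A = Y) (h2 : A * Y - Y * A = Z) (h3 : A * Z - Z * A = 0) :
    exp A * X = (X + Y + (1 / 2 : ℂ) • Z) * exp A := by
  have hd : ∀ t : ℂ, HasDerivAt
      (fun t : ℂ => exp (t • (-A)) * (X + t • Y + (t ^ 2 / 2) • Z) * exp (t • A)) 0 t := by
    intro t
    have a1 := hasDerivAt_exp_smul_const (𝕂 := ℂ) (-A) t
    have a2 := hasDerivAt_exp_smul_const' (𝕂 := ℂ) A t
    have a3 : HasDerivAt (fun t : ℂ => X + t • Y + (t ^ 2 / 2) • Z) (Y + t • Z) t := by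
      have b1 : HasDerivAt (fun t : ℂ => t ^ 2 / 2) t t := by
        simpa using (hasDerivAt_pow 2 t).div_const 2
      have b2 := (((hasDerivAt_id t).smul_const Y).const_add X).add (b1.smul_const Z)
      exact b2.congr_deriv (by rw [one_smul])
    refine ((a1.mul a3).mul a2).congr_deriv ?_
    have e : -A * (X + t • Y + (t ^ 2 / 2) • Z) + (Y + t • Z) + (X + t • Y + (t ^ 2 / 2) • Z) * A
        = (Y - (A * X - X * A)) + t • (Z - (A * Y - Y * A)) - (t ^ 2 / 2) • (A * Z - Z * A) := by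
      simp only [mul_add, add_mul, neg_mul, mul_smul_comm, smul_mul_assoc]
      module
    rw [h1, h2, h3, sub_self, sub_self, smul_zero, smul_zero, add_zero, sub_zero] at e
    calc _ = exp (t • (-A)) * (-A * (X + t • Y + (t ^ 2 / 2) • Z) + (Y + t • Z) +
          (X + t • Y + (t ^ 2 / 2) • Z) * A) * exp (t • A) := by
          simp only [Pi.mul_apply]; noncomm_ring
      _ = 0 := by rw [e, mul_zero, zero_mul]
  have hc := is_const_of_deriv_eq_zero (fun t => (hd t).differentiableAt)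
    (fun t => (hd t).deriv) 1 0
  simp only [one_smul, zero_smul, exp_zero, one_pow, one_mul, mul_one, add_zero, ne_eq,
    OfNat.ofNat_ne_zero, not_false_eq_true, zero_pow, zero_div] at hc
  have hi : exp A * exp (-A) = 1 := by
    rw [← NormedSpace.exp_add_of_commute (Commute.refl A).neg_right, add_neg_cancel, exp_zero]
  rw [← hc, ← mul_assoc, ← mul_assoc, hi, one_mul, hc]

section sl2
variable {m : Type} [Fintype m] [DecidableEq m]

set_option backward.isDefEq.respectTransparency false in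
theorem exp_ad' {A X Y Z : Matrix m m ℂ}
    (h1 : A * X - X * A = Y) (h2 : A * Y - Y * A = Z) (h3 : A * Z - Z * A = 0) :
    exp A * X = (X + Y + (1 / 2 : ℂ) • Z) * exp A :=
  open scoped Matrix.Norms.Operator in exp_ad h1 h2 h3

set_option backward.isDefEq.respectTransparency false in
theorem semiconj_exp {R A B : Matrix m m ℂ} (h : R * A = B * R) : R * exp A = exp B * R :=
  open scoped Matrix.Norms.Operator in SemiconjBy.exp_right h

theorem trace_conj {C A B W : Matrix m m ℂ} (hW : Commute C W) (h : exp C * A = B * exp C) :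
    (exp A * W).trace = (exp B * W).trace := by
  have hi : exp (-C) * exp C = 1 := by
    rw [← Matrix.exp_add_of_commute _ _ (Commute.refl C).neg_left, neg_add_cancel, exp_zero]
  have hi' : exp C * exp (-C) = 1 := by
    rw [← Matrix.exp_add_of_commute _ _ (Commute.refl C).neg_right, add_neg_cancel, exp_zero]
  calc (exp A * W).trace = (exp (-C) * (exp C * exp A) * W).trace := by
        rw [← Matrix.mul_assoc, hi, Matrix.one_mul]
    _ = (exp (-C) * (exp B * W) * exp C).trace := by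
        rw [semiconj_exp h]
        simp only [Matrix.mul_assoc]
        rw [hW.exp_left.eq]
    _ = (exp B * W).trace := by
        rw [Matrix.trace_mul_comm, ← Matrix.mul_assoc, hi', Matrix.one_mul]

/-- an `sl₂` triple whose raising and lowering operators commute with `W`. -/
structure Sl (M P Q W : Matrix m m ℂ) : Prop where
  mp : M * P - P * M = P
  qm : Q * M - M * Q = Q
  pq : P * Q - Q * P = (2 : ℂ) • M
  cp : Commute P W
  cq : Commute Q W

variable {M P Q W : Matrix m m ℂ}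

theorem Sl.flip (h : Sl M P Q W) : Sl (-M) Q P W where
  mp := by rw [Matrix.neg_mul, Matrix.mul_neg]; exact (by abel : _ = Q * M - M * Q).trans h.qm
  qm := by rw [Matrix.neg_mul, Matrix.mul_neg]; exact (by abel : _ = M * P - P * M).trans h.mp
  pq := by rw [smul_neg, ← h.pq]; abel
  cp := h.cq
  cq := h.cp

/-- the tilted partition function. -/
noncomputable def T (M P Q W : Matrix m m ℂ) (a p q : ℂ) : ℂ :=
  (exp (a • M + p • P + q • Q) * W).trace

theorem T_flip (a p q : ℂ) : T M P Q W a p q = T (-M) Q P W (-a) q p := by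
  unfold T
  rw [neg_smul_neg, add_right_comm]

theorem Sl.moveP (h : Sl M P Q W) (a p q s : ℂ) :
    T M P Q W a p q = T M P Q W (a + 2 * s * q) (p - a * s - q * s ^ 2) q := by
  have pm : P * M = M * P - P := by rw [eq_sub_iff_add_eq, ← eq_sub_iff_add_eq', h.mp]
  have pq : P * Q = Q * P + (2 : ℂ) • M := by rw [← h.pq]; abel
  refine trace_conj (C := s • P) (h.cp.smul_left s) ?_
  rw [exp_ad' (A := s • P) (X := a • M + p • P + q • Q)
    (Y := (2 * s * q) • M + (-(a * s)) • P) (Z := (-(2 * s ^ 2 * q)) • P)]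
  · congr 1; module
  · simp only [Matrix.mul_add, Matrix.add_mul, Matrix.mul_smul, Matrix.smul_mul, pm, pq]; module
  · simp only [Matrix.mul_add, Matrix.add_mul, Matrix.mul_smul, Matrix.smul_mul, pm]; module
  · simp only [Matrix.mul_smul, Matrix.smul_mul]; module

theorem Sl.moveQ (h : Sl M P Q W) (a p q s : ℂ) :
    T M P Q W a p q = T M P Q W (a - 2 * s * p) p (q + a * s - p * s ^ 2) := by
  rw [T_flip, h.flip.moveP _ _ _ s, T_flip (M := M)]
  congr 1
  · ring
  · ring

theorem Sl.rot1 (h : Sl M P Q W) {a p q r : ℂ} (hr : r ≠ 0) (hq : q ≠ 0)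
    (e : a ^ 2 + 4 * p * q = r ^ 2) : T M P Q W a p q = T M P Q W r 0 0 := by
  rw [h.moveP a p q ((r - a) / (2 * q))]
  have e1 : a + 2 * ((r - a) / (2 * q)) * q = r := by field_simp; ring
  have e2 : p - a * ((r - a) / (2 * q)) - q * ((r - a) / (2 * q)) ^ 2 = 0 := by
    field_simp; linear_combination e
  rw [e1, e2, h.moveQ r 0 q (-q / r)]
  congr 1
  · ring
  · field_simp; ring

theorem Sl.rot (h : Sl M P Q W) {a p q r : ℂ} (hr : r ≠ 0)
    (e : a ^ 2 + 4 * p * q = r ^ 2) : T M P Q W a p q = T M P Q W r 0 0 := by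
  by_cases hq : q = 0
  · subst hq
    have ha : a ≠ 0 := by
      rintro rfl
      exact hr ((pow_eq_zero_iff two_ne_zero).1 (by linear_combination -e))
    rw [h.moveP a p 0 (p / a)]
    have e2 : p - a * (p / a) - 0 * (p / a) ^ 2 = 0 := by field_simp; ring
    rw [e2, h.moveQ _ 0 0 1]
    refine h.rot1 hr (by simpa using ha) (by linear_combination e)
  · exact h.rot1 hr hq e

theorem Sl.cas (h : Sl M P Q W) :
    ((M * M + (1 / 2 : ℂ) • (P * Q + Q * P)) * W).trace = 3 * (M * M * W).trace := by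
  have k : ∀ {A : Matrix m m ℂ}, Commute A W → ∀ B : Matrix m m ℂ,
      ((A * B - B * A) * W).trace = 0 := fun {A} hA B => by
    rw [Matrix.sub_mul, Matrix.trace_sub, Matrix.mul_assoc A, Matrix.trace_mul_comm A,
      Matrix.mul_assoc B, Matrix.mul_assoc B, hA.eq, sub_self]
  have e1 : P * (Q * M) - Q * M * P = (P * Q - Q * P) * M - Q * (M * P - P * M) := by
    noncomm_ring
  have e2 : Q * (P * M) - P * M * Q = -((P * Q - Q * P) * M) + P * (Q * M - M * Q) := by
    noncomm_ring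
  have k1 := k h.cp (Q * M)
  have k2 := k h.cq (P * M)
  rw [e1, h.pq, h.mp] at k1
  rw [e2, h.pq, h.qm] at k2
  simp only [Matrix.sub_mul, Matrix.add_mul, Matrix.neg_mul, Matrix.smul_mul, Matrix.trace_sub,
    Matrix.trace_add, Matrix.trace_neg, Matrix.trace_smul, smul_eq_mul] at k1 k2 ⊢
  linear_combination (1 / 2 : ℂ) * k2 - (1 / 2 : ℂ) * k1

end sl2

section spin
variable {X : Type} [Fintype X] [DecidableEq X] {n : ℕ} {J : X → X → ℝ}

theorem P_commute_ham (hJ : Ferro J) : Commute (∑ x, Sp n x) (ham n J) := by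
  unfold Commute SemiconjBy
  rw [← sub_eq_zero, Finset.sum_mul, Finset.mul_sum, ← Finset.sum_sub_distrib]
  simp only [Sp_ham_comm hJ, smul_sub, Finset.sum_sub_distrib]
  rw [Finset.sum_comm, sub_eq_zero]
  exact Finset.sum_congr rfl fun x _ => Finset.sum_congr rfl fun y _ => by rw [hJ.symm]

theorem Q_commute_ham (hJ : Ferro J) : Commute (∑ x, Sm n x) (ham n J) := by
  have := congrArg Matrix.transpose (P_commute_ham (n := n) hJ).eq
  simp only [Matrix.transpose_mul, Matrix.transpose_sum, Sp_transpose, ham_transpose] at this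
  exact this.symm

theorem sl (hJ : Ferro J) (β : ℝ) : Sl (magn X n) (∑ x, Sp n x) (∑ x, Sm n x) (W n J 0 β) where
  mp := by
    simp only [Finset.sum_mul, Finset.mul_sum, ← Finset.sum_sub_distrib, magn_Sp_comm]
  qm := by
    simp only [Finset.sum_mul, Finset.mul_sum, ← Finset.sum_sub_distrib, magn_Sm_comm]
  pq := by
    rw [Finset.sum_mul_sum, Finset.sum_mul_sum, Finset.sum_comm (f := fun x y => Sm n x * Sp n y),
      ← Finset.sum_sub_distrib, magn, Finset.smul_sum]
    refine Finset.sum_congr rfl fun x _ => ?_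
    rw [← Finset.sum_sub_distrib, Finset.sum_eq_single x, Sp_Sm_comm]
    · intro y _ hy; rw [(Sp_commute_Sm (Ne.symm hy)).eq, sub_self]
    · simp
  cp := by rw [W_eq, hamF_zero]; exact gW_commute (P_commute_ham hJ) β
  cq := by rw [W_eq, hamF_zero]; exact gW_commute (Q_commute_ham hJ) β

/-- number of magnons of a configuration. -/
def nm (σ : X → Fin (n + 1)) : ℕ := ∑ x, (n - (σ x : ℕ))

omit [DecidableEq X] in
theorem nm_cast (σ : X → Fin (n + 1)) : (nm σ : ℝ) = ∑ x, ((n : ℝ) - (σ x : ℕ)) := by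
  rw [nm, Nat.cast_sum]
  exact Finset.sum_congr rfl fun x _ => Nat.cast_sub (Nat.le_of_lt_succ (σ x).2)

omit [DecidableEq X] in
theorem mval_nm (σ : X → Fin (n + 1)) :
    mval n σ = (n : ℝ) * (Fintype.card X : ℕ) / 2 - nm σ := by
  rw [mval_eq, nm_cast, spinVal]; ring

theorem fib (J : X → X → ℝ) (β : ℝ) (f : ℕ → ℝ) :
    ∑ σ : X → Fin (n + 1), (W n J 0 β σ σ).re * f (nm σ) =
      ∑ N ∈ Finset.range (n * Fintype.card X + 1), Zc n J β N * f N := by
  simp only [Zc, Finset.sum_mul]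
  rw [Finset.sum_comm]
  refine Finset.sum_congr rfl fun σ _ => ?_
  have hle : nm σ ≤ n * Fintype.card X := by
    calc nm σ ≤ ∑ _x : X, n := Finset.sum_le_sum fun x _ => Nat.sub_le _ _
      _ = _ := by simp [mul_comm]
  rw [Finset.sum_eq_single (nm σ)]
  · rw [if_pos (show ∑ x, (n - (σ x : ℕ)) = nm σ from rfl)]
  · intro N _ hN; rw [if_neg (show ¬ ∑ x, (n - (σ x : ℕ)) = N from Ne.symm hN), zero_mul]
  · intro h; exact absurd (Finset.mem_range.2 (Nat.lt_succ_of_le hle)) h

theorem trace_diag (J : X → X → ℝ) (β : ℝ) (f : ℕ → ℝ) :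
    ((diagonal fun σ : X → Fin (n + 1) => ((f (nm σ) : ℝ) : ℂ)) * W n J 0 β).trace =
      ((∑ N ∈ Finset.range (n * Fintype.card X + 1), Zc n J β N * f N : ℝ) : ℂ) := by
  rw [← fib, Complex.ofReal_sum]
  simp only [Matrix.trace, Matrix.diag_apply, Matrix.diagonal_mul]
  refine Finset.sum_congr rfl fun σ _ => ?_
  have him : (W n J 0 β σ σ).im = 0 := (gW_diag_pos (hamF_herm J 0) β σ).1
  apply Complex.ext <;> simp [him, mul_comm]

theorem T_diag (J : X → X → ℝ) (β r : ℝ) (P Q : Op X n) :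
    T (magn X n) P Q (W n J 0 β) r 0 0 =
      ((∑ N ∈ Finset.range (n * Fintype.card X + 1), Zc n J β N *
        Real.exp (r * ((n : ℝ) * (Fintype.card X : ℕ) / 2 - N)) : ℝ) : ℂ) := by
  rw [← trace_diag J β fun N => Real.exp (r * ((n : ℝ) * (Fintype.card X : ℕ) / 2 - N))]
  unfold T
  rw [zero_smul, zero_smul, add_zero, add_zero, magn_eq, ← Matrix.diagonal_smul,
    Matrix.exp_diagonal]
  congr 3; funext σ
  rw [Pi.coe_exp, ← Complex.exp_eq_exp_ℂ, Complex.ofReal_exp, ← mval_nm]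
  simp

theorem comp_eq (t : Fin 3 → ℝ) :
    ∑ a : Fin 3, ((t a : ℝ) : ℂ) • ∑ x : X, siteOpOn x (spinComp n a) =
      ((t 2 : ℝ) : ℂ) • magn X n + (((t 0 : ℝ) - Complex.I * (t 1 : ℝ)) / 2) • ∑ x, Sp n x +
        (((t 0 : ℝ) + Complex.I * (t 1 : ℝ)) / 2) • ∑ x, Sm n x := by
  have e0 : ∀ x : X, siteOpOn x (spinComp n 0) = (1 / 2 : ℂ) • (Sp n x + Sm n x) := fun x => by
    rw [Sp, Sm, ← site_add, ← site_smul]; rfl
  have e1 : ∀ x : X, siteOpOn x (spinComp n 1) = (-Complex.I / 2) • (Sp n x - Sm n x) := fun x => by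
    have : (1 / (2 * Complex.I) : ℂ) = -Complex.I / 2 := by
      field_simp; simp
    rw [Sp, Sm, ← site_sub, ← site_smul, ← this]; rfl
  have e2 : ∀ x : X, siteOpOn x (spinComp n 2) = Sz n x := fun x => rfl
  rw [Fin.sum_univ_three]
  simp only [e0, e1, e2, ← Finset.smul_sum, Finset.sum_add_distrib, Finset.sum_sub_distrib]
  rw [← magn]
  module

theorem dot_eq : ∑ x : X, ∑ y : X, spinDotOn n x y = magn X n * magn X n +
    (1 / 2 : ℂ) • ((∑ x, Sp n x) * (∑ x, Sm n x) + (∑ x, Sm n x) * ∑ x, Sp n x) := by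
  simp only [spinDotOn_eq, magn, Finset.sum_mul_sum, Finset.sum_add_distrib, ← Finset.smul_sum]

end spin

end Ro

open Ro in
theorem rot : RotStmt := by
  intro X _ _ n J β hJ V M
  have h1 : ∀ h : ℝ, Zp n J β h =
      ∑ N ∈ Finset.range (n * V + 1), Zc n J β N * Real.exp (β * h * M N) := fun h => by
    rw [Zp_eq, ← fib J β fun N => Real.exp (β * h * M N)]
    simp only [mval_nm, M, V]
  refine ⟨h1, fun h => ?_, fun t => ?_, ?_⟩
  · have e : ∑ x, num n x = diagonal fun σ : X → Fin (n + 1) => (((nm σ : ℕ) : ℝ) : ℂ) := by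
      ext σ τ
      simp only [num_eq, Matrix.sum_apply, nm_cast]
      by_cases hστ : σ = τ
      · subst hστ; simp
      · simp [hστ]
    rw [e, ev_diagonal, h1]
    have e2 : ∑ σ : X → Fin (n + 1), ((nm σ : ℕ) : ℝ) *
        ((W n J 0 β σ σ).re * Real.exp (β * h * mval n σ)) =
        ∑ N ∈ Finset.range (n * V + 1), Zc n J β N * (N * Real.exp (β * h * M N)) := by
      rw [← fib J β fun N => N * Real.exp (β * h * M N)]
      refine Finset.sum_congr rfl fun σ _ => ?_
      simp only [mval_nm, M, V]; ring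
    have e3 : ∀ N : ℕ, Real.exp (β * h * M N) =
        Real.exp (β * h * ((n : ℝ) * V / 2)) * Real.exp (-(β * h * N)) := fun N => by
      rw [← Real.exp_add]; congr 1; simp only [M]; ring
    rw [e2, mo, mo]
    refine Eq.trans ?_ (mul_div_mul_left _ _ (Real.exp_pos (β * h * ((n : ℝ) * V / 2))).ne')
    rw [Finset.mul_sum, Finset.mul_sum]
    congr 1 <;> exact Finset.sum_congr rfl fun N _ => by rw [e3]; ring
  · rw [comp_eq]
    set r := Real.sqrt (∑ a, t a ^ 2) with hr
    have hr2 : r ^ 2 = t 0 ^ 2 + t 1 ^ 2 + t 2 ^ 2 := by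
      rw [hr, Real.sq_sqrt (Finset.sum_nonneg fun a _ => sq_nonneg _), Fin.sum_univ_three]
    refine Eq.trans ?_ (T_diag J β r (∑ x, Sp n x) (∑ x, Sm n x))
    by_cases h0 : r = 0
    · have t0 : t 0 = 0 := by nlinarith [sq_nonneg (t 0), sq_nonneg (t 1), sq_nonneg (t 2)]
      have t1 : t 1 = 0 := by nlinarith [sq_nonneg (t 0), sq_nonneg (t 1), sq_nonneg (t 2)]
      have t2 : t 2 = 0 := by nlinarith [sq_nonneg (t 0), sq_nonneg (t 1), sq_nonneg (t 2)]
      simp [T, t0, t1, t2, h0]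
    · refine (sl hJ β).rot (Complex.ofReal_ne_zero.2 h0) ?_
      have : ((r : ℝ) : ℂ) ^ 2 = (t 0 : ℂ) ^ 2 + (t 1 : ℂ) ^ 2 + (t 2 : ℂ) ^ 2 := by
        exact_mod_cast congrArg (fun x : ℝ => (x : ℂ)) hr2
      rw [this]
      linear_combination (-(t 1 : ℂ) ^ 2) * Complex.I_sq
  · simp only [← Matrix.trace_sum, ← Finset.sum_mul]
    rw [dot_eq, (sl hJ β).cas, Complex.ofReal_mul, ← trace_diag J β fun N => M N ^ 2, magn_eq,
      Matrix.diagonal_mul_diagonal]
    congr 3
    funext σ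
    simp only [mval_nm, M, V]
    push_cast; ring

end Crest.Agent.N337.C
end

-- ▼ part N337/C/Model

/-!
# Row 337, `C.model : ModelStmt` (helper88)
-/

set_option autoImplicit false
set_option linter.unusedSectionVars false

namespace Crest.Agent.N337.C

open Matrix Crest.Agent.N337.Slot Crest.Agent.N337.Slot.SL Crest.MathPhysics.SpinModel

namespace Mo

variable {d L n : ℕ}

theorem ferro_nn (hL : 3 ≤ L) : Ferro (torJ (nnCoupling d) L) := by
  refine ⟨Free.torJ_symm (Asy.coup_nn d), Free.torJ_nonneg (Asy.coup_nn d), fun x => ?_⟩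
  rw [Free.torJ_eq (Asy.coup_nn d)]
  refine Finset.sum_eq_zero fun z _ => ?_
  split_ifs with h
  · unfold nnCoupling
    rw [if_neg]
    intro h0
    have : z = 0 := funext fun a => by
      have h1 : ((z a : ℤ) : ZMod L) = 0 := by simpa [tcast] using congrFun h a
      have h2 : |z a| ≤ 1 := h0 ▸ Finset.single_le_sum (f := fun a => |z a|)
        (fun _ _ => abs_nonneg _) (Finset.mem_univ a)
      refine Int.eq_zero_of_dvd_of_natAbs_lt_natAbs
        ((ZMod.intCast_zmod_eq_zero_iff_dvd _ _).1 h1) ?_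
      have := abs_le.1 h2
      simp only [Int.natAbs_natCast]
      omega
    simp [this] at h0
  · rfl

theorem one_le_J (x : Tor d L) (a : Fin d) :
    1 ≤ torJ (nnCoupling d) L x (x + Pi.single a 1) := by
  have h1 : nnCoupling d (Pi.single a 1) = 1 := by
    unfold nnCoupling
    rw [if_pos]
    rw [Finset.sum_eq_single a] <;> simp +contextual
  rw [Free.torJ_eq (Asy.coup_nn d)]
  refine le_trans (le_of_eq ?_) (Finset.single_le_sum
    (f := fun z => if tcast L z = x + Pi.single a 1 - x then nnCoupling d z else 0)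
    (fun z _ => ?_) ((Free.mem_sp (Asy.coup_nn d)).2 (by rw [h1]; exact one_ne_zero)))
  · rw [if_pos, h1]
    funext b
    by_cases hb : b = a
    · subst hb; simp [tcast]
    · simp [tcast, hb]
  · split_ifs
    exacts [(Asy.coup_nn d).nonneg z, le_rfl]

variable [NeZero L]

/-- a natural vector on the torus -/
def nc (L : ℕ) (v : Fin d → ℕ) : Tor d L := fun a => (v a : ZMod L)

theorem path {ρ : BOp (Tor d L × Fin n)} (h : ρ.PosSemidef) {S : ℝ}
    (h0 : ∀ u v : Tor d L × Fin n, u.1 = v.1 → tt ρ u v = 0)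
    (hS : ∀ a i j, ∑ x, tt ρ (x, i) (x + Pi.single a 1, j) ≤ S) (k : ℕ) :
    ∀ v : Fin d → ℕ, ∑ a, v a = k → ∀ i j,
      ∑ z, tt ρ (z, i) (z + nc L v, j) ≤ 8 * (k : ℝ) ^ 2 * S := by
  induction k with
  | zero =>
    intro v hv i j
    have : nc L v = 0 := funext fun a => by
      simp [nc, Finset.sum_eq_zero_iff.1 hv a (Finset.mem_univ a)]
    rw [Finset.sum_eq_zero fun z _ => h0 _ _ (by simp [this])]
    simp
  | succ k ih =>
    intro v hv i j
    obtain ⟨a, -, ha⟩ := Finset.exists_ne_zero_of_sum_ne_zero (s := Finset.univ) (f := v)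
      (by omega)
    have h1 := Finset.add_sum_erase Finset.univ v (Finset.mem_univ a)
    have h2 := ih (Function.update v a (v a - 1)) (by
      rw [Finset.sum_update_of_mem (Finset.mem_univ a), Finset.sdiff_singleton_eq_erase]
      omega) i i
    set w := nc L (Function.update v a (v a - 1)) with hw
    have e : nc L v = w + Pi.single a 1 := funext fun b => by
      by_cases hb : b = a
      · subst hb
        obtain ⟨m, hm⟩ := Nat.exists_eq_succ_of_ne_zero ha
        simp [hw, nc, hm]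
      · simp [hw, nc, hb]
    have h3 : ∑ z, tt ρ (z + w, i) (z + w + Pi.single a 1, j) ≤ S := by
      have e3 := Equiv.sum_comp (Equiv.addRight w) fun x => tt ρ (x, i) (x + Pi.single a 1, j)
      simp only [Equiv.coe_addRight] at e3
      rw [e3]
      exact hS a i j
    have S0 : 0 ≤ S := (Finset.sum_nonneg fun x _ => tt_nonneg h _ _).trans h3
    have k0 : (0 : ℝ) ≤ k := Nat.cast_nonneg k
    have s0 : (0 : ℝ) < 1 / (k + 1) := by positivity
    have h4 := Finset.sum_le_sum fun z (_ : z ∈ Finset.univ) =>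
      tt_tri h (z, i) (z + w, i) (z + w + Pi.single a 1, j) s0
    rw [Finset.sum_add_distrib, ← Finset.mul_sum, ← Finset.mul_sum, one_div_one_div] at h4
    simp only [e, ← add_assoc]
    have h5 := mul_le_mul_of_nonneg_left h2 (show 0 ≤ 1 + 1 / ((k : ℝ) + 1) by positivity)
    have h6 := mul_le_mul_of_nonneg_left h3 (show 0 ≤ 4 * (1 + ((k : ℝ) + 1)) by positivity)
    have h7 : 1 / ((k : ℝ) + 1) * k ^ 2 ≤ k := by
      rw [div_mul_eq_mul_div, div_le_iff₀ (by positivity)]
      nlinarith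
    have h8 := mul_le_mul_of_nonneg_right h7 S0
    have h9 := mul_nonneg k0 S0
    push_cast
    linarith

/-- the uniform weight on the slots of the cube of side `l` with corner `z` -/
noncomputable def cube (L n l : ℕ) (z : Tor 3 L) (s : Tor 3 L × Fin n) : ℝ :=
  ∑ v : Fin 3 → Fin l, if s.1 = z + nc L (fun a => v a) then 1 / ((n : ℝ) * (l : ℝ) ^ 3) else 0

theorem sum_cube {l : ℕ} (z : Tor 3 L) (f : Tor 3 L × Fin n → ℝ) :
    ∑ s, cube L n l z s * f s = 1 / ((n : ℝ) * (l : ℝ) ^ 3) *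
      ∑ v : Fin 3 → Fin l, ∑ i, f (z + nc L (fun a => v a), i) := by
  simp only [cube, Finset.sum_mul, Finset.mul_sum]
  rw [Finset.sum_comm]
  refine Finset.sum_congr rfl fun v _ => ?_
  rw [Fintype.sum_prod_type, Finset.sum_comm]
  refine Finset.sum_congr rfl fun i _ => ?_
  simp only [ite_mul, zero_mul, Finset.sum_ite_eq', Finset.mem_univ, if_true]

theorem blocks_cube {l : ℕ} (hn : 1 ≤ n) (hl : 1 ≤ l) (hL : l ≤ L) :
    Blocks (cube L n l) (1 / ((n : ℝ) * (l : ℝ) ^ 3)) := by
  have n0 : (0 : ℝ) < n := by exact_mod_cast hn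
  have l0 : (0 : ℝ) < l := by exact_mod_cast hl
  have h0 : ∀ z s, 0 ≤ cube L n l z s := fun z s =>
    Finset.sum_nonneg fun v _ => by split_ifs <;> positivity
  have h1 : ∀ z, ∑ s, cube L n l z s = 1 := fun z => by
    have := sum_cube (n := n) (l := l) z fun _ => 1
    simp only [mul_one, Finset.sum_const, Finset.card_univ, Fintype.card_fin, Fintype.card_fun,
      nsmul_eq_mul] at this
    rw [this]
    push_cast
    field_simp
  have h2 : ∀ z s, cube L n l z s ≤ 1 / ((n : ℝ) * (l : ℝ) ^ 3) := fun z s => by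
    rw [cube, ← Finset.sum_filter, Finset.sum_const, nsmul_eq_mul]
    refine mul_le_of_le_one_left (by positivity) ?_
    rw [Nat.cast_le_one, Finset.card_le_one]
    intro v hv w hw
    have e := ((Finset.mem_filter.1 hv).2.symm.trans (Finset.mem_filter.1 hw).2)
    funext a
    have e1 : ((v a : ℕ) : ZMod L) = ((w a : ℕ) : ZMod L) := congrFun (add_left_cancel e) a
    have e2 := congrArg ZMod.val e1
    rw [ZMod.val_natCast_of_lt ((v a).2.trans_le hL),
      ZMod.val_natCast_of_lt ((w a).2.trans_le hL)] at e2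
    exact Fin.ext e2
  refine ⟨h0, h1, fun z => ?_, fun s => ?_⟩
  · refine (Finset.sum_le_sum fun s _ => (sq _).trans_le
      (mul_le_mul_of_nonneg_left (h2 z s) (h0 z s))).trans (le_of_eq ?_)
    rw [← Finset.sum_mul, h1, one_mul]
  · have : ∑ z, cube L n l z s = 1 / n := by
      simp only [cube]
      rw [Finset.sum_comm]
      simp only [← sub_eq_iff_eq_add, Finset.sum_ite_eq, Finset.mem_univ, if_true,
        Finset.sum_const, Finset.card_univ, Fintype.card_fin, Fintype.card_fun, nsmul_eq_mul]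
      push_cast
      field_simp
    rw [this, Fintype.card_prod, Fintype.card_fin]
    push_cast
    rw [div_div, mul_comm]

end Mo

open Mo in
theorem model : ModelStmt := by
  intro n L _ β hn hL hβ
  have hJ := ferro_nn (d := 3) hL
  obtain ⟨k, k0, hk⟩ := Zs_WW (n := n) hJ β
  refine ⟨WW n _ β, k, k0, good hJ hβ, hk, fun l hl hlL =>
    ⟨cube L n l, blocks_cube hn hl hlL, fun R hR hR' hc => ?_⟩⟩
  have hB := blocks_cube (L := L) hn hl hlL
  have hρ := RW_psd hJ β hR hc
  have hE := energy hJ hβ hR hR' hc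
  have h0 := fun u v (h : u.1 = v.1) => tt_site hJ β R (u := u) (v := v) h
  generalize R * WW n (torJ (nnCoupling 3) L) β = ρ at hρ hE h0 ⊢
  have n0 : (0 : ℝ) < n := by exact_mod_cast hn
  have l0 : (0 : ℝ) < l := by exact_mod_cast hl
  have V0 : (0 : ℝ) < (L : ℝ) ^ 3 := Free.vol_pos
  have hV : (Fintype.card (Tor 3 L) : ℝ) = (L : ℝ) ^ 3 := by rw [Free.card_Tor]; push_cast; rfl
  rw [hV] at hE
  set S := 8 * ((L : ℝ) ^ 3 * n) / β * ρ.trace + 8 / β with hSdef
  have t0 := hρ.trace_nonneg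
  have S0 : 0 ≤ S := by positivity
  have hS : ∀ a i j, ∑ x, tt ρ (x, i) (x + Pi.single a 1, j) ≤ S := by
    intro a i j
    refine le_trans ?_ hE
    have p0 : ∀ u v : Tor 3 L × Fin n, 0 ≤ torJ (nnCoupling 3) L u.1 v.1 * tt ρ u v :=
      fun u v => mul_nonneg (hJ.nonneg _ _) (tt_nonneg hρ _ _)
    rw [Fintype.sum_prod_type]
    refine Finset.sum_le_sum fun x _ => ?_
    refine le_trans ?_ (Finset.single_le_sum
      (f := fun i' => ∑ v, torJ (nnCoupling 3) L x v.1 * tt ρ (x, i') v)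
      (fun i' _ => Finset.sum_nonneg fun v _ => p0 (x, i') v) (Finset.mem_univ i))
    refine le_trans ?_ (Finset.single_le_sum
      (f := fun v : Tor 3 L × Fin n => torJ (nnCoupling 3) L x v.1 * tt ρ (x, i) v)
      (fun v _ => p0 (x, i) v) (Finset.mem_univ (x + Pi.single a 1, j)))
    exact le_mul_of_one_le_left (tt_nonneg hρ _ _) (one_le_J x a)
  have i0 : Fin n := ⟨0, hn⟩
  have hp : ∀ (v : Fin 3 → Fin l) (i : Fin n),
      ∑ z, tt ρ (z, i0) (z + nc L (fun a => v a), i) ≤ 72 * (l : ℝ) ^ 2 * S := by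
    intro v i
    refine (path hρ h0 hS _ _ rfl i0 i).trans (mul_le_mul_of_nonneg_right ?_ S0)
    have h1 : ∑ a, (v a : ℕ) ≤ 3 * l := by
      rw [Fin.sum_univ_three]
      have := (v 0).2; have := (v 1).2; have := (v 2).2
      omega
    have h2 : ((∑ a, (v a : ℕ) : ℕ) : ℝ) ≤ 3 * l := by exact_mod_cast h1
    have h3 := pow_le_pow_left₀ (Nat.cast_nonneg _) h2 2
    linarith
  have e1 : (ρ * (1 - avSq (cube L n l))).trace =
      1 / (L : ℝ) ^ 3 * ∑ z, (ρ * (1 - Sq (cube L n l z))).trace := by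
    simp only [avSq, trace_sub, Matrix.mul_smul, trace_smul, Matrix.mul_sum,
      trace_sum, Finset.sum_sub_distrib, Finset.sum_const, Finset.card_univ, nsmul_eq_mul, hV,
      smul_eq_mul, mul_sub]
    field_simp
  have h2 : ∑ z, (ρ * (1 - Sq (cube L n l z))).trace ≤ 720 * (l : ℝ) ^ 2 * S := by
    refine (Finset.sum_le_sum fun z _ => block_le hρ (hB.nonneg z) (hB.sum z) (z, i0)).trans ?_
    simp only [sum_cube, ← Finset.mul_sum]
    rw [Finset.sum_comm]
    have h3 : ∑ v : Fin 3 → Fin l, ∑ z, ∑ i, tt ρ (z, i0) (z + nc L (fun a => v a), i) ≤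
        ∑ _v : Fin 3 → Fin l, ∑ _i : Fin n, 72 * (l : ℝ) ^ 2 * S :=
      Finset.sum_le_sum fun v _ => by
        rw [Finset.sum_comm]; exact Finset.sum_le_sum fun i _ => hp v i
    simp only [Finset.sum_const, Finset.card_univ, Fintype.card_fin, Fintype.card_fun,
      nsmul_eq_mul] at h3
    have h4 := mul_le_mul_of_nonneg_left h3 (show 0 ≤ 1 / ((n : ℝ) * (l : ℝ) ^ 3) by positivity)
    have h5 : 1 / ((n : ℝ) * (l : ℝ) ^ 3) * (((l ^ 3 : ℕ) : ℝ) * (n * (72 * (l : ℝ) ^ 2 * S))) =
        72 * (l : ℝ) ^ 2 * S := by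
      push_cast; field_simp
    linarith
  rw [e1]
  refine (mul_le_mul_of_nonneg_left h2 (by positivity)).trans ?_
  have e2 : 1 / (L : ℝ) ^ 3 * (720 * (l : ℝ) ^ 2 * S) = 5760 * (n * (l : ℝ) ^ 2 / β * ρ.trace) +
      5760 * ((l : ℝ) ^ 2 / (β * (L : ℝ) ^ 3)) := by
    rw [hSdef]; field_simp; ring
  have e3 : 10 ^ 4 * n * (l : ℝ) ^ 2 / β * ρ.trace + 10 ^ 4 * (l : ℝ) ^ 2 / (β * (L : ℝ) ^ 3) =
      10000 * (n * (l : ℝ) ^ 2 / β * ρ.trace) + 10000 * ((l : ℝ) ^ 2 / (β * (L : ℝ) ^ 3)) := by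
    ring
  have p1 : 0 ≤ n * (l : ℝ) ^ 2 / β * ρ.trace := by positivity
  have p2 : 0 ≤ (l : ℝ) ^ 2 / (β * (L : ℝ) ^ 3) := by positivity
  rw [e2, e3]
  linarith

end Crest.Agent.N337.C
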