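import Crest.Agent.N337.M.CelJ
import Crest.Agent.N337.Par.Je_Mg
import Crest.Agent.N337.R.Gb_Mg
import Crest.Agent.N337.Par.Tk
import Crest.Agent.N337.Top.BMain
import Crest.Agent.N337.C.Defs

-- ▼ part N337/M/Fin1
section

/-!
# Row 337, the chain (helper56): all joints from the engine and the media
-/

set_option autoImplicit false
set_option linter.unusedSectionVars false

namespace Crest.Agent.N337.M.Ctx

open Finset Crest.Agent.N337.Free Crest.Agent.N337.Gas Crest.Agent.N337.A Crest.Agent.N337.Top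
  Crest.Agent.N337.Par

variable {L n : ℕ} [NeZero L] [NeZero n] {u ms w : ℕ} {β : ℝ} {sy : List (Sl L n × Sl L n × ℝ)}
  (C : Ctx u ms β w sy) (z : Tor 3 L)

/-- what is left. -/
theorem all_of (hB : C.JB z) (hN : C.JN z) (hT : C.JT z) : C.JA z ∧ C.JD z ∧ C.JE z ∧ C.JF z :=
  have hA : C.JA z := ja hB
  ⟨hA, C.jd z hA hB, C.je_of z hA hB (jc hN) hT, C.jf z hA hB⟩

end Crest.Agent.N337.M.Ctx
end

-- ▼ part N337/M/Fin
section

/-!
# Row 337, the chain (helper56): the polar bound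
-/

set_option autoImplicit false

namespace Crest.Agent.N337.M

theorem dlvAll : Crest.Agent.N337.Par.DlvAll :=
  dlvAll_of fun _ _ => Filter.Eventually.of_forall fun _ _ _ _ _ _ _ C z =>
    C.all_of z (C.jB z) (C.jN z) (C.jt' z (C.jA z) (C.jB z))

/-- **the polar bound.** -/
theorem polarAll : C.PolarStmt := polar2 (Crest.Agent.N337.Par.fin2_of dlvAll) ZM.long

end Crest.Agent.N337.M
end

-- ▼ part N337/C/Law
section

/-!
# Row 337, S0527: the limit law of the magnetisation (`LawStmt`) (helper44)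

The weights are compared with the flat weights on the window `[B, n V - B]`.
-/

set_option autoImplicit false

namespace Crest.Agent.N337.C

open Filter Topology Finset

namespace Lw

/-- the window -/
def Sw (nn B : ℕ) : Finset ℕ := Ico B (nn - B + 1)

variable {Z : ℕ → ℝ} {nn B : ℕ}

theorem card_Sw (hB : 2 * B ≤ nn) : ((Sw nn B).card : ℝ) = nn - 2 * B + 1 := by
  rw [Sw, Nat.card_Ico, show nn - B + 1 - B = nn - 2 * B + 1 by omega]
  push_cast [Nat.cast_sub hB]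
  ring

theorem Sw_subset : Sw nn B ⊆ range (nn + 1) := fun N hN => by
  simp only [Sw, mem_Ico, mem_range] at hN ⊢; omega

theorem le_of_mem (h : Uni Z nn) {N : ℕ} (hN : N ∈ Sw nn B) : Z B ≤ Z N := by
  simp only [Sw, mem_Ico] at hN
  by_cases h2 : 2 * N ≤ nn
  · exact h.mono _ _ hN.1 h2
  · rw [← h.symm N (by omega)]
    exact h.mono _ _ (by omega) (by omega)

theorem sum_pos' (h : Uni Z nn) : 0 < ∑ N ∈ range (nn + 1), Z N :=
  h.pos.trans_le (single_le_sum (fun N _ => h.nonneg N) (mem_range.2 (Nat.succ_pos _)))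

/-- the excess over the flat weights -/
noncomputable def tt (Z : ℕ → ℝ) (nn B N : ℕ) : ℝ := Z N - if N ∈ Sw nn B then Z B else 0

theorem tt_nonneg (h : Uni Z nn) (N : ℕ) : 0 ≤ tt Z nn B N := by
  unfold tt
  split_ifs with hN
  · linarith [le_of_mem h hN]
  · linarith [h.nonneg N]

theorem sum_tt_mul (F : ℕ → ℝ) : ∑ N ∈ range (nn + 1), tt Z nn B N * F N =
    ∑ N ∈ range (nn + 1), Z N * F N - Z B * ∑ N ∈ Sw nn B, F N := by
  simp only [tt, sub_mul, sum_sub_distrib, ite_mul, zero_mul, sum_ite_mem,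
    inter_eq_right.2 Sw_subset, mul_sum]

theorem approx (h : Uni Z nn) (hB : 2 * B ≤ nn) {η K : ℝ}
    (hη : ∑ N ∈ range (nn + 1), tt Z nn B N ≤ η * ∑ N ∈ range (nn + 1), Z N)
    {F : ℕ → ℝ} (hF : ∀ N ≤ nn, |F N| ≤ K) :
    |(∑ N ∈ range (nn + 1), Z N * F N) / ∑ N ∈ range (nn + 1), Z N -
      (∑ N ∈ Sw nn B, F N) / (Sw nn B).card| ≤ η * (2 * K) := by
  have hZ := sum_pos' h
  have hc : (0 : ℝ) < (Sw nn B).card := by
    rw [card_Sw hB]
    have : ((2 * B : ℕ) : ℝ) ≤ nn := by exact_mod_cast hB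
    push_cast at this
    linarith
  have hK : 0 ≤ K := (abs_nonneg _).trans (hF 0 (Nat.zero_le _))
  set a := (∑ N ∈ Sw nn B, F N) / (Sw nn B).card with ha
  have hle : ∀ N ∈ range (nn + 1), |F N| ≤ K := fun N hN => hF N (Nat.lt_succ_iff.1 (mem_range.1 hN))
  have haK : |a| ≤ K := by
    rw [ha, abs_div, abs_of_pos hc, div_le_iff₀ hc, mul_comm, ← nsmul_eq_mul]
    exact (abs_sum_le_sum_abs _ _).trans (sum_le_card_nsmul _ _ _ fun N hN => hle N (Sw_subset hN))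
  have e := sum_tt_mul (Z := Z) (nn := nn) (B := B) fun N => F N - a
  have e0 : ∑ N ∈ Sw nn B, (F N - a) = 0 := by
    rw [sum_sub_distrib, sum_const, nsmul_eq_mul, ha, mul_div_cancel₀ _ hc.ne', sub_self]
  simp only [e0, mul_zero, sub_zero, mul_sub (Z _), sum_sub_distrib, ← sum_mul] at e
  rw [div_sub' hZ.ne', ← e, abs_div, abs_of_pos hZ, div_le_iff₀ hZ]
  calc _ ≤ ∑ N ∈ range (nn + 1), tt Z nn B N * (2 * K) := by
        refine (abs_sum_le_sum_abs _ _).trans (sum_le_sum fun N hN => ?_)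
        rw [abs_mul, abs_of_nonneg (tt_nonneg h N)]
        exact mul_le_mul_of_nonneg_left ((abs_sub _ _).trans (by linarith [hle N hN]))
          (tt_nonneg h N)
    _ ≤ η * (∑ N ∈ range (nn + 1), Z N) * (2 * K) := by
        rw [← sum_mul]; exact mul_le_mul_of_nonneg_right hη (by positivity)
    _ = _ := by ring

theorem sum_tt_le (h : Uni Z nn) (hB : 2 * B ≤ nn) {A N1 : ℕ} {r : ℝ} (hr : 0 ≤ r)
    (hA : ∀ N < A, Z N ≤ r * Z B) (h1 : Z N1 ≤ (1 + r) * Z B) (hN1 : 2 * N1 ≤ nn) :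
    ∑ N ∈ range (nn + 1), tt Z nn B N ≤ 2 * ((nn + 1) * r * Z B + (Ico A B).card * Z B +
      ∑ N ∈ (range (nn + 1)).filter (fun N => N1 < N ∧ 2 * N ≤ nn), (Z N - Z N1)) := by
  have hZ := h.nonneg B
  let s : ℕ → ℝ := fun N => r * Z B + (if N ∈ Ico A B then Z B else 0) +
    if N1 < N ∧ 2 * N ≤ nn then Z N - Z N1 else 0
  have p1 : ∀ N, 0 ≤ if N ∈ Ico A B then Z B else 0 := fun N => by split_ifs <;> simp [hZ]
  have p2 : ∀ N, 0 ≤ if N1 < N ∧ 2 * N ≤ nn then Z N - Z N1 else 0 := fun N => by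
    split_ifs with hN
    · linarith [h.mono _ _ hN.1.le hN.2]
    · exact le_rfl
  have p3 : 0 ≤ r * Z B := mul_nonneg hr hZ
  have s0 : ∀ N, 0 ≤ s N := fun N => add_nonneg (add_nonneg p3 (p1 N)) (p2 N)
  have half : ∀ N, 2 * N ≤ nn → tt Z nn B N ≤ s N := fun N hN => by
    have q1 := p1 N
    have q2 := p2 N
    simp only [tt, s]
    rcases lt_or_ge N B with hb | hb
    · rw [if_neg (by simp only [Sw, mem_Ico]; omega)]
      rcases lt_or_ge N A with ha | ha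
      · linarith [hA N ha]
      · rw [if_pos (mem_Ico.2 ⟨ha, hb⟩)]
        linarith [h.mono _ _ hb.le hB]
    · rw [if_pos (by simp only [Sw, mem_Ico]; omega)]
      rcases lt_or_ge N1 N with ha | ha
      · rw [if_pos (And.intro ha hN)]
        linarith
      · linarith [h.mono _ _ ha hN1]
  have all : ∀ N ∈ range (nn + 1), tt Z nn B N ≤ s N + s (nn + 1 - 1 - N) := fun N hN => by
    have hN' := Nat.lt_succ_iff.1 (mem_range.1 hN)
    rw [Nat.add_sub_cancel]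
    by_cases h2 : 2 * N ≤ nn
    · linarith [half N h2, s0 (nn - N)]
    · have e : tt Z nn B N = tt Z nn B (nn - N) := by
        simp only [tt, h.symm N hN']
        congr 1
        exact if_congr (by simp only [Sw, mem_Ico]; omega) rfl rfl
      linarith [half (nn - N) (by omega), s0 N]
  refine (sum_le_sum all).trans ?_
  rw [sum_add_distrib, sum_range_reflect, ← two_mul]
  refine mul_le_mul_of_nonneg_left ?_ zero_le_two
  simp only [s, sum_add_distrib, sum_const, card_range, nsmul_eq_mul, sum_ite_mem, sum_filter]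
  push_cast
  have : ((range (nn + 1) ∩ Ico A B).card : ℝ) ≤ (Ico A B).card := by
    exact_mod_cast card_le_card inter_subset_right
  nlinarith

theorem sum_exp (a x : ℝ) (c : ℕ) :
    (∑ i ∈ range c, Real.exp (a * (x - i))) * (2 * Real.sinh (a / 2)) =
      Real.exp (a * (x + 1 / 2)) - Real.exp (a * (x - c + 1 / 2)) := by
  induction c with
  | zero => simp
  | succ c ih =>
    rw [sum_range_succ, add_mul, ih, Real.sinh_eq, mul_div_cancel₀ _ two_ne_zero, mul_sub,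
      ← Real.exp_add, ← Real.exp_add]
    push_cast
    ring_nf

theorem sum_sq (x : ℝ) (c : ℕ) : ∑ i ∈ range c, (x - i) ^ 2 =
    c * x ^ 2 - x * c * (c - 1) + (c - 1) * c * (2 * c - 1) / 6 := by
  induction c with
  | zero => simp
  | succ c ih => rw [sum_range_succ, ih]; push_cast; ring

theorem sum_Sw (hB : 2 * B ≤ nn) (G : ℝ → ℝ) : ∑ N ∈ Sw nn B, G ((nn : ℝ) / 2 - N) =
    ∑ i ∈ range (Sw nn B).card, G ((((Sw nn B).card : ℝ) - 1) / 2 - i) := by
  rw [card_Sw hB, Sw, sum_Ico_eq_sum_range, Nat.card_Ico]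
  refine sum_congr rfl fun i _ => ?_
  push_cast
  congr 1
  ring

theorem avg_exp (hB : 2 * B ≤ nn) {a : ℝ} (ha : 0 < a) :
    ∑ N ∈ Sw nn B, Real.exp (a * ((nn : ℝ) / 2 - N)) =
      Real.sinh (a * (Sw nn B).card / 2) / Real.sinh (a / 2) := by
  have hs : 0 < Real.sinh (a / 2) := Real.sinh_pos_iff.2 (half_pos ha)
  rw [sum_Sw hB fun x => Real.exp (a * x), eq_div_iff hs.ne']
  have := sum_exp a ((((Sw nn B).card : ℝ) - 1) / 2) (Sw nn B).card
  rw [Real.sinh_eq (a * _ / 2), show a * (Sw nn B).card / 2 =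
    a * ((((Sw nn B).card : ℝ) - 1) / 2 + 1 / 2) by ring, show -(a * ((((Sw nn B).card : ℝ) - 1) / 2
      + 1 / 2)) = a * ((((Sw nn B).card : ℝ) - 1) / 2 - (Sw nn B).card + 1 / 2) by ring, ← this]
  ring

theorem avg_sq (hB : 2 * B ≤ nn) : ∑ N ∈ Sw nn B, ((nn : ℝ) / 2 - N) ^ 2 =
    (Sw nn B).card * (((Sw nn B).card : ℝ) ^ 2 - 1) / 12 := by
  rw [sum_Sw hB fun x => x ^ 2, sum_sq]
  ring

section seq
variable {n : ℕ} {β m : ℝ} {V : ℕ → ℕ} {Z : ℕ → ℕ → ℝ} {p : ℝ → ℝ}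

theorem vol (H : Seq n β m V Z p) : Tendsto (fun L => (V L : ℝ)) atTop atTop :=
  tendsto_natCast_atTop_atTop.comp H.vol

theorem ev_B (H : Seq n β m V Z p) {ε : ℝ} (hε : 0 < ε) (hε' : ε ≤ 1 / 32) : ∀ᶠ L in atTop,
    (⌈(n / 2 - m + ε) * V L⌉₊ : ℝ) ≤ V L / 8 ∧ 2 * ⌈(n / 2 - m + ε) * V L⌉₊ ≤ n * V L := by
  filter_upwards [(vol H).eventually_ge_atTop 16] with L hV
  have h1 := (Nat.ceil_lt_add_one (a := (n / 2 - m + ε) * V L)
    (mul_nonneg (by linarith [H.lo]) (by linarith))).le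
  have h2 : (n / 2 - m + ε) * V L ≤ 1 / 16 * V L :=
    mul_le_mul_of_nonneg_right (by linarith [H.hi]) (by linarith)
  have hn : (1 : ℝ) ≤ n := by exact_mod_cast H.hn
  refine ⟨by linarith, ?_⟩
  rw [← @Nat.cast_le ℝ]
  push_cast
  nlinarith

theorem tendsto_card (H : Seq n β m V Z p) {ε : ℝ} (hε : 0 < ε) (hε' : ε ≤ 1 / 32) :
    Tendsto (fun L => ((Sw (n * V L) ⌈(n / 2 - m + ε) * V L⌉₊).card : ℝ) / V L) atTop
      (𝓝 (2 * (m - ε))) := by
  have h1 := (tendsto_nat_ceil_mul_div_atTop (a := n / 2 - m + ε) (by linarith [H.lo])).comp (vol H)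
  have h2 := ((tendsto_const_nhds (x := (n : ℝ))).sub (h1.const_mul 2)).add
    (vol H).inv_tendsto_atTop
  rw [show (n : ℝ) - 2 * (n / 2 - m + ε) + 0 = 2 * (m - ε) by ring] at h2
  refine h2.congr' ?_
  filter_upwards [ev_B H hε hε', (vol H).eventually_gt_atTop 0] with L hB hV
  rw [card_Sw hB.2]
  simp only [Function.comp_apply, Pi.inv_apply]
  push_cast
  field_simp

theorem flat (hL : LDStmt) (H : Seq n β m V Z p) {N1 : ℕ → ℕ} (h8 : ∀ᶠ L in atTop, 8 * N1 L ≤ V L)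
    (hw : ∀ d r : ℝ, 0 < d → 0 < r → ∀ᶠ L in atTop,
      Z L (N1 L) ≤ (1 + r) * Z L ⌈(n / 2 - m + d) * V L⌉₊ ∨ N1 L ≤ ⌈(n / 2 - m + d) * V L⌉₊)
    (hκ : ∀ κ : ℝ, 0 < κ → ∀ᶠ L in atTop,
      ∑ N ∈ (range (n * V L + 1)).filter (fun N => N1 L < N ∧ 2 * N ≤ n * V L),
        (Z L N - Z L (N1 L)) ≤ κ * ∑ N ∈ range (n * V L + 1), Z L N)
    {η ε : ℝ} (hε : 0 < ε) (hε' : ε ≤ 1 / 32) (hη : 32 * ε ≤ η) : ∀ᶠ L in atTop,
      ∑ N ∈ range (n * V L + 1), tt (Z L) (n * V L) ⌈(n / 2 - m + ε) * V L⌉₊ N ≤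
        η * ∑ N ∈ range (n * V L + 1), Z L N := by
  have hn : (1 : ℝ) ≤ n := by exact_mod_cast H.hn
  have hr : 0 < ε / n := by positivity
  filter_upwards [H.uni, ev_B H hε hε', h8, hw ε _ hε hr, hκ (4 * ε) (by positivity),
    (hL n β m V Z p H).2 ε _ hε hr, (vol H).eventually_ge_atTop (max 1 ε⁻¹)]
    with L hu hB h8 hw hκ hld hV
  obtain ⟨hV1, hVε⟩ := max_le_iff.1 hV
  set B := ⌈(n / 2 - m + ε) * V L⌉₊ with hBdef
  have hZ := hu.nonneg B
  have hVn : V L ≤ n * V L := Nat.le_mul_of_pos_left _ H.hn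
  have key := sum_tt_le hu hB.2 (A := ⌊(n / 2 - m - ε) * V L⌋₊) (N1 := N1 L) hr.le
    (fun N hN => by
      have h1 := (Nat.le_floor_iff' (Nat.succ_ne_zero N)).1 hN
      push_cast at h1
      refine le_trans (le_mul_of_one_le_left (hu.nonneg N) ?_)
        (hld N B (by linarith) (Nat.le_ceil _) hB.2)
      exact_mod_cast Nat.succ_pos _)
    (hw.elim id fun h1 => (hu.mono _ _ h1 hB.2).trans (le_mul_of_one_le_left hZ (by linarith)))
    (by omega)
  refine key.trans ?_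
  have c1 : ((Ico ⌊(n / 2 - m - ε) * V L⌋₊ B).card : ℝ) ≤ 4 * ε * V L := by
    have b1 := (Nat.ceil_lt_add_one (a := (n / 2 - m + ε) * V L)
      (mul_nonneg (by linarith [H.lo]) (by linarith))).le
    have b2 := (Nat.sub_one_lt_floor ((n / 2 - m - ε) * V L)).le
    have b3 : 1 ≤ ε * V L := by rwa [inv_le_iff_one_le_mul₀' hε] at hVε
    rw [Nat.card_Ico]
    rcases le_total ⌊(n / 2 - m - ε) * V L⌋₊ B with h1 | h1
    · rw [Nat.cast_sub h1]; linarith
    · rw [Nat.sub_eq_zero_of_le h1, Nat.cast_zero]; linarith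
  have c2 : (((n * V L : ℕ) : ℝ) + 1) * (ε / n) ≤ 2 * ε * V L := by
    push_cast
    rw [← mul_div_assoc, div_le_iff₀ (by linarith)]
    have : (1 : ℝ) ≤ n * V L := one_le_mul_of_one_le_of_one_le hn hV1
    nlinarith
  have c3 : V L * Z L B ≤ 2 * ∑ N ∈ range (n * V L + 1), Z L N := by
    have b1 := sum_nonneg fun N (_ : N ∈ range (n * V L + 1)) => tt_nonneg (B := B) hu N
    have b2 := sum_tt_mul (Z := Z L) (nn := n * V L) (B := B) fun _ => 1
    simp only [mul_one, sum_const, nsmul_eq_mul, card_Sw hB.2] at b2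
    have b3 : (V L : ℝ) ≤ (n * V L : ℕ) := by exact_mod_cast hVn
    have b4 : Z L B * (V L / 2) ≤ Z L B * ((n * V L : ℕ) - 2 * B + 1) :=
      mul_le_mul_of_nonneg_left (by linarith [hB.1]) hZ
    linarith
  have d1 := mul_le_mul_of_nonneg_right c1 hZ
  have d2 := mul_le_mul_of_nonneg_right c2 hZ
  have d3 := mul_le_mul_of_nonneg_left c3 hε.le
  have d4 := mul_le_mul_of_nonneg_right hη (sum_pos' hu).le
  linarith

theorem gen (H : Seq n β m V Z p)
    (hf : ∀ η ε : ℝ, 0 < ε → ε ≤ 1 / 32 → 32 * ε ≤ η → ∀ᶠ L in atTop,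
      ∑ N ∈ range (n * V L + 1), tt (Z L) (n * V L) ⌈(n / 2 - m + ε) * V L⌉₊ N ≤
        η * ∑ N ∈ range (n * V L + 1), Z L N)
    {F : ℕ → ℕ → ℝ} {K : ℝ} (hK : 0 < K) (hF : ∀ᶠ L in atTop, ∀ N ≤ n * V L, |F L N| ≤ K)
    {φ : ℝ → ℝ} (hφ : ContinuousAt φ m)
    (hlim : ∀ ε : ℝ, 0 < ε → ε ≤ 1 / 32 → Tendsto (fun L =>
      (∑ N ∈ Sw (n * V L) ⌈(n / 2 - m + ε) * V L⌉₊, F L N) /
        (Sw (n * V L) ⌈(n / 2 - m + ε) * V L⌉₊).card) atTop (𝓝 (φ (m - ε)))) :
    Tendsto (fun L => (∑ N ∈ range (n * V L + 1), Z L N * F L N) /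
      ∑ N ∈ range (n * V L + 1), Z L N) atTop (𝓝 (φ m)) := by
  refine Metric.tendsto_nhds.2 fun e he => ?_
  obtain ⟨δ, hδ, hδ'⟩ := Metric.continuousAt_iff.1 hφ (e / 3) (by positivity)
  obtain ⟨ε, hε, h1, h2, h3⟩ : ∃ ε : ℝ, 0 < ε ∧ ε ≤ 1 / 32 ∧ ε < δ ∧ 32 * ε * (2 * K) ≤ e / 3 :=
    ⟨min (min (1 / 32) (δ / 2)) (e / (192 * K)), by positivity,
      (min_le_left _ _).trans (min_le_left _ _),
      ((min_le_left _ _).trans (min_le_right _ _)).trans_lt (half_lt_self hδ), by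
        have := min_le_right (min (1 / 32) (δ / 2)) (e / (192 * K))
        rw [le_div_iff₀ (by positivity)] at this
        linarith⟩
  have h4 := @hδ' (m - ε) (by rwa [Real.dist_eq, sub_sub_cancel_left, abs_neg, abs_of_pos hε])
  filter_upwards [H.uni, ev_B H hε h1, hf _ ε hε h1 le_rfl, hF,
    Metric.tendsto_nhds.1 (hlim ε hε h1) (e / 3) (by positivity)] with L hu hB ht hF h5
  have h6 := (approx hu hB.2 ht hF).trans h3
  rw [← Real.dist_eq] at h6
  linarith [dist_triangle4 ((∑ N ∈ range (n * V L + 1), Z L N * F L N) /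
    ∑ N ∈ range (n * V L + 1), Z L N) ((∑ N ∈ Sw (n * V L) ⌈(n / 2 - m + ε) * V L⌉₊, F L N) /
        (Sw (n * V L) ⌈(n / 2 - m + ε) * V L⌉₊).card) (φ (m - ε)) (φ m)]

theorem abs_M_le {n V N : ℕ} (h : N ≤ n * V) : |(n : ℝ) * V / 2 - N| ≤ n * V := by
  have h1 : (N : ℝ) ≤ n * V := by exact_mod_cast h
  have h2 : (0 : ℝ) ≤ N := Nat.cast_nonneg N
  rw [abs_le]
  constructor <;> linarith

end seq

end Lw

open Lw in
theorem law (hL : LDStmt) : LawStmt := by
  intro n β m V Z p H N1 h8 hw hκ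
  have hn : (1 : ℝ) ≤ n := by exact_mod_cast H.hn
  have hm : 1 / 4 < m - 1 / 32 := by linarith [H.hi]
  have hf := fun η ε => flat hL H h8 hw hκ (η := η) (ε := ε)
  have hV := (vol H).eventually_gt_atTop 0
  refine ⟨fun r hr => gen H hf (K := Real.exp (r * n)) (Real.exp_pos _) ?_
    (φ := fun y => Real.sinh (y * r) / (y * r)) ?_ fun ε hε hε' => ?_, ?_⟩
  · filter_upwards [hV] with L hV N hN
    rw [abs_of_pos (Real.exp_pos _), Real.exp_le_exp]
    refine (mul_le_mul_of_nonneg_left ((le_abs_self _).trans (abs_M_le hN))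
      (by positivity)).trans_eq ?_
    field_simp
  · exact ContinuousAt.div (by fun_prop) (by fun_prop) (mul_pos (by linarith) hr).ne'
  · have h1 := tendsto_card H hε hε'
    have h2 : Tendsto (fun L => Real.sinh (r / V L / 2) / (r / V L / 2)) atTop (𝓝 1) := by
      have a1 := (hasDerivAt_iff_tendsto_slope.1 (Real.hasDerivAt_sinh 0)).comp
        (f := fun L => r / V L / 2) (x := atTop) (tendsto_nhdsWithin_iff.2
          ⟨by simpa using ((vol H).const_div_atTop r).div_const 2,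
            hV.mono fun L hV => (by positivity : 0 < r / V L / 2).ne'⟩)
      simpa [Function.comp_def, slope_def_field] using a1
    have h3 := ((Real.continuous_sinh.tendsto _).comp ((h1.const_mul r).div_const 2)).div
      (((h1.const_mul r).div_const 2).mul h2) (by
        have : 0 < m - ε := by linarith
        positivity)
    rw [show r * (2 * (m - ε)) / 2 = (m - ε) * r by ring, mul_one] at h3
    refine h3.congr' ?_
    filter_upwards [hV, ev_B H hε hε'] with L hV hB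
    have := avg_exp hB.2 (a := r / V L) (by positivity)
    push_cast at this
    simp only [Function.comp_apply, Pi.div_apply, this]
    generalize ((Sw (n * V L) ⌈(n / 2 - m + ε) * V L⌉₊).card : ℝ) = c
    rw [show r * (c / V L) / 2 = r / V L * c / 2 by ring, div_div (Real.sinh _) (Real.sinh _) c]
    generalize Real.sinh (r / V L / 2) = s
    congr 1
    field_simp
  · have := gen H hf (F := fun L N => 3 * ((n : ℝ) * V L / 2 - N) ^ 2 / (V L : ℝ) ^ 2)
      (K := 3 * (n : ℝ) ^ 2) (by positivity) ?_ (φ := fun y => y ^ 2) (by fun_prop)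
      fun ε hε hε' => ?_
    · refine this.congr fun L => ?_
      congr 1
      rw [mul_sum, sum_div]
      exact sum_congr rfl fun N _ => by ring
    · filter_upwards [hV] with L hV N hN
      rw [abs_of_nonneg (by positivity), div_le_iff₀ (by positivity), mul_assoc, ← mul_pow,
        ← sq_abs]
      gcongr
      exact abs_M_le hN
    · have h1 := tendsto_card H hε hε'
      have h3 := ((h1.pow 2).sub ((vol H).inv_tendsto_atTop.pow 2)).div_const 4
      rw [show ((2 * (m - ε)) ^ 2 - 0 ^ 2) / 4 = (m - ε) ^ 2 by ring] at h3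
      refine h3.congr' ?_
      filter_upwards [hV, ev_B H hε hε', h1.eventually (lt_mem_nhds
        (show 0 < 2 * (m - ε) by linarith))] with L hV hB hc
      have := avg_sq hB.2
      push_cast at this
      rw [← sum_div, ← mul_sum, this]
      have hc' := (div_pos_iff_of_pos_right hV).1 hc
      simp only [Pi.inv_apply]
      generalize ((Sw (n * V L) ⌈(n / 2 - m + ε) * V L⌉₊).card : ℝ) = c at hc' ⊢
      field_simp
      ring

end Crest.Agent.N337.C
end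

-- ▼ part N337/C/Dec
section

/-! # Row 337: layer decomposition of symmetric unimodal weights. -/

set_option autoImplicit false

namespace Crest.Agent.N337.C

open Finset

/-- increments -/
def dd (Z : ℕ → ℝ) : ℕ → ℝ
  | 0 => Z 0
  | k + 1 => Z (k + 1) - Z k

theorem sum_dd (Z : ℕ → ℝ) (N : ℕ) : ∑ k ∈ range (N + 1), dd Z k = Z N := by
  induction N with
  | zero => simp [dd]
  | succ N ih => rw [sum_range_succ, ih, dd]; ring

theorem sum_dd_Ioc (Z : ℕ → ℝ) {A B : ℕ} (h : A ≤ B) : ∑ k ∈ Ioc A B, dd Z k = Z B - Z A := by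
  induction B, h using Nat.le_induction with
  | base => simp
  | succ B h ih => rw [sum_Ioc_succ_top h, ih, dd]; ring

theorem Uni.dd_nonneg {Z : ℕ → ℝ} {n k : ℕ} (h : Uni Z n) (hk : 2 * k ≤ n) : 0 ≤ dd Z k := by
  cases k with
  | zero => exact h.nonneg 0
  | succ k => exact sub_nonneg.2 (h.mono k (k + 1) (Nat.le_succ k) hk)

theorem Uni.eq_min {Z : ℕ → ℝ} {n N : ℕ} (h : Uni Z n) (hN : N ≤ n) : Z N = Z (min N (n - N)) := by
  rcases le_total N (n - N) with e | e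
  · rw [min_eq_left e]
  · rw [min_eq_right e, h.symm N hN]

/-- layer decomposition -/
theorem Uni.decomp {Z : ℕ → ℝ} {n : ℕ} (h : Uni Z n) (F : ℕ → ℝ) :
    ∑ N ∈ range (n + 1), Z N * F N =
      ∑ k ∈ range (n / 2 + 1), dd Z k * ∑ N ∈ Icc k (n - k), F N := by
  simp only [mul_sum]
  rw [sum_comm' (t' := range (n + 1)) (s' := fun N => range (min N (n - N) + 1))]
  · refine sum_congr rfl fun N hN => ?_
    rw [← sum_mul, sum_dd, ← h.eq_min (Nat.lt_succ_iff.1 (mem_range.1 hN))]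
  · intro k N
    simp only [mem_range, mem_Icc]
    omega

end Crest.Agent.N337.C
private theorem rz_fc089c527d : type_of% @_root_.Crest.Agent.N337.C.dd.eq_1 := @_root_.Crest.Agent.N337.C.dd.eq_1 -- L12
end

-- ▼ part N337/C/B1
section

/-! # Row 337: the polar bound gives a flat canonical window (`B1Stmt`). -/

set_option autoImplicit false
set_option linter.unusedVariables false
set_option maxHeartbeats 400000

namespace Crest.Agent.N337.C

open Finset Filter Topology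

namespace B

/-- truncated geometric sum -/
noncomputable def gs (τ : ℝ) (M : ℕ) : ℝ := ∑ i ∈ range M, Real.exp (-(τ * i))

theorem exp_succ (τ : ℝ) (M : ℕ) :
    Real.exp (-(τ * (M + 1 : ℕ))) = Real.exp (-(τ * M)) * Real.exp (-τ) := by
  rw [← Real.exp_add]; congr 1; push_cast; ring

theorem gs_lo (τ : ℝ) (M : ℕ) : 1 - Real.exp (-(τ * M)) ≤ τ * gs τ M := by
  induction M with
  | zero => simp [gs]
  | succ M ih =>
    rw [gs, sum_range_succ, ← gs, exp_succ]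
    have h1 := Real.add_one_le_exp (-τ)
    have h2 := Real.exp_pos (-(τ * M))
    nlinarith

theorem gs_hi {τ : ℝ} (M : ℕ) : τ * gs τ M ≤ (1 + τ) * (1 - Real.exp (-(τ * M))) := by
  induction M with
  | zero => simp [gs]
  | succ M ih =>
    rw [gs, sum_range_succ, ← gs, exp_succ]
    have h1 : (1 + τ) * Real.exp (-τ) ≤ 1 := by
      have := Real.add_one_le_exp τ
      rw [Real.exp_neg, ← div_eq_mul_inv, div_le_one (Real.exp_pos _)]
      linarith
    have h2 := Real.exp_pos (-(τ * M))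
    nlinarith

theorem le_gs {τ : ℝ} (hτ : 0 ≤ τ) (M : ℕ) : M * Real.exp (-(τ * M)) ≤ gs τ M := by
  have : ∑ _i ∈ range M, Real.exp (-(τ * M)) ≤ gs τ M := sum_le_sum fun i hi =>
    Real.exp_le_exp.2 (neg_le_neg (mul_le_mul_of_nonneg_left
      (Nat.cast_le.2 (mem_range.1 hi).le) hτ))
  simpa using this

theorem tele (τ : ℝ) (M : ℕ) : (1 - τ) * gs τ M - M * Real.exp (-(τ * M))
    ≤ τ * ∑ i ∈ range M, (i : ℝ) * Real.exp (-(τ * i)) := by
  induction M with
  | zero => simp [gs]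
  | succ M ih =>
    rw [gs, sum_range_succ, ← gs, sum_range_succ, exp_succ]
    have h1 := Real.add_one_le_exp (-τ)
    have h2 := Real.exp_pos (-(τ * M))
    have h3 : (0 : ℝ) ≤ (M + 1) * Real.exp (-(τ * M)) := by positivity
    push_cast
    nlinarith [mul_le_mul_of_nonneg_left h1 h3]

/-- the layer sums -/
noncomputable def Fk (τ K : ℝ) (n k : ℕ) : ℝ :=
  ∑ N ∈ Icc k (n - k), Real.exp (-(τ * N)) * (K - N)

theorem Fk_le {τ : ℝ} (hτ : 0 < τ) (K : ℝ) {n k : ℕ} (hk : 2 * k ≤ n) :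
    τ * Fk τ (K + 1 / τ) n k ≤ Real.exp (-(τ * k)) * (τ * gs τ (n - 2 * k + 1) * (K + 1 - k)
      + (n - 2 * k + 1 : ℕ) * Real.exp (-(τ * (n - 2 * k + 1 : ℕ)))) := by
  have e : Fk τ (K + 1 / τ) n k = Real.exp (-(τ * k)) * (gs τ (n - 2 * k + 1) * (K + 1 / τ - k)
      - ∑ i ∈ range (n - 2 * k + 1), (i : ℝ) * Real.exp (-(τ * i))) := by
    rw [Fk, ← Finset.Ico_add_one_right_eq_Icc, sum_Ico_eq_sum_range,
      show n - k + 1 - k = n - 2 * k + 1 by omega, gs, sum_mul, ← sum_sub_distrib, mul_sum]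
    refine sum_congr rfl fun i _ => ?_
    push_cast
    rw [mul_add, neg_add, Real.exp_add]
    ring
  rw [e, mul_left_comm]
  refine mul_le_mul_of_nonneg_left ?_ (Real.exp_pos _).le
  have h1 := tele τ (n - 2 * k + 1)
  have h2 : τ * (gs τ (n - 2 * k + 1) * (K + 1 / τ - k))
      = τ * gs τ (n - 2 * k + 1) * (K - k) + gs τ (n - 2 * k + 1) := by
    field_simp
    ring
  rw [mul_sub, h2]
  linarith

theorem Fk_nonpos {τ : ℝ} (hτ : 0 < τ) {K : ℝ} {n k : ℕ} (hk : 2 * k ≤ n)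
    (h : K + 1 + 1 / τ ≤ k) : τ * Fk τ (K + 1 / τ) n k ≤ 0 := by
  refine (Fk_le hτ K hk).trans (mul_nonpos_of_nonneg_of_nonpos (Real.exp_pos _).le ?_)
  have h1 := le_gs hτ.le (n - 2 * k + 1)
  have h2 : 0 ≤ gs τ (n - 2 * k + 1) := le_trans (by positivity) h1
  have h3 : τ * gs τ (n - 2 * k + 1) * (K + 1 - k) ≤ τ * gs τ (n - 2 * k + 1) * (-(1 / τ)) :=
    mul_le_mul_of_nonneg_left (by linarith) (by positivity)
  have h4 : τ * gs τ (n - 2 * k + 1) * (-(1 / τ)) = -gs τ (n - 2 * k + 1) := by field_simp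
  linarith

theorem Fk_mid {τ u : ℝ} (hτ : 0 < τ) (hτ1 : τ ≤ 1) (hu : 2 ≤ u) {K K1 : ℝ} {n k : ℕ}
    (hk : 2 * k ≤ n) (h : u / 2 ≤ τ * (n - 2 * k))
    (hK : K + 1 + 2 * (n + 1) * Real.exp (-(u / 2)) ≤ K1) :
    ∃ g, 1 / 2 ≤ g ∧ g ≤ 2 ∧ τ * Fk τ (K + 1 / τ) n k ≤ Real.exp (-(τ * k)) * (g * (K1 - k)) := by
  have hc : ((n - 2 * k + 1 : ℕ) : ℝ) = n - 2 * k + 1 := by
    rw [Nat.cast_add, Nat.cast_sub hk]; push_cast; ring
  have h0 : u / 2 ≤ τ * (n - 2 * k + 1 : ℕ) := by rw [hc]; linarith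
  have h1 : Real.exp (-(τ * (n - 2 * k + 1 : ℕ))) ≤ Real.exp (-(u / 2)) :=
    Real.exp_le_exp.2 (by linarith)
  have h2 : Real.exp (-(u / 2)) ≤ 1 / 2 := by
    rw [Real.exp_neg, ← one_div]
    exact one_div_le_one_div_of_le two_pos (by linarith [Real.add_one_le_exp (u / 2)])
  have h3 := gs_lo τ (n - 2 * k + 1)
  have h4 := gs_hi (τ := τ) (n - 2 * k + 1)
  have h5 := Real.exp_pos (-(τ * (n - 2 * k + 1 : ℕ)))
  refine ⟨τ * gs τ (n - 2 * k + 1), by linarith, by nlinarith, (Fk_le hτ K hk).trans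
    (mul_le_mul_of_nonneg_left ?_ (Real.exp_pos _).le)⟩
  have h6 : ((n - 2 * k + 1 : ℕ) : ℝ) * Real.exp (-(τ * (n - 2 * k + 1 : ℕ)))
      ≤ (n + 1) * Real.exp (-(u / 2)) :=
    mul_le_mul (by rw [hc]; linarith [Nat.cast_nonneg (α := ℝ) k]) h1 h5.le (by positivity)
  have h7 : (0 : ℝ) ≤ (n + 1) * Real.exp (-(u / 2)) := by positivity
  have h8 : 1 / 2 ≤ τ * gs τ (n - 2 * k + 1) := by linarith
  nlinarith [mul_le_mul_of_nonneg_left hK (le_trans (by norm_num) h8),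
    mul_le_mul_of_nonneg_right h8 h7]

theorem dd_le {Z : ℕ → ℝ} {n : ℕ} (h : Uni Z n) (k : ℕ) : dd Z k ≤ Z k := by
  cases k with
  | zero => exact le_rfl
  | succ k => exact sub_le_self _ (h.nonneg k)

theorem mo_pos {Z : ℕ → ℝ} {n : ℕ} (h : Uni Z n) (τ : ℝ) : 0 < mo Z n 0 τ :=
  sum_pos' (fun N _ => mul_nonneg (mul_nonneg (h.nonneg N) (by positivity)) (Real.exp_pos _).le)
    ⟨0, by simp, by simpa using h.pos⟩

/-- the deterministic estimate -/
theorem main {Z : ℕ → ℝ} {n : ℕ} (hZ : Uni Z n) {τ u K K1 D D' D'' s a q : ℝ} {Nm N1 : ℕ}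
    (hτ : 0 < τ) (hτ1 : τ ≤ 1) (hu : 2 ≤ u) (hq : u / 2 ≤ τ * (n - 2 * q))
    (hKq : K + 1 + 1 / τ ≤ q) (h1 : Nm ≤ N1) (h2 : (N1 : ℝ) ≤ q) (h3 : 2 * N1 ≤ n)
    (hK : K + 1 + 2 * (n + 1) * Real.exp (-(u / 2)) ≤ K1) (hD : K1 + D ≤ Nm) (hD0 : 0 ≤ D)
    (hD' : K1 - a ≤ D') (hD'0 : 0 ≤ D') (hD'' : K1 ≤ D'') (hD''0 : 0 ≤ D'') (hs : 0 ≤ s)
    (hsm : ∀ k : ℕ, (k : ℝ) ≤ a → ((n + 1 : ℕ) : ℝ) * Z k ≤ s * Z Nm)
    (hyp : mo Z n 1 τ / mo Z n 0 τ ≤ K + 1 / τ) :
    (Z N1 - Z Nm) * (Real.exp (-(τ * N1)) * (D / 2)) ≤ (2 * D' + 2 * D'' * s) * Z Nm := by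
  classical
  have hn : (0 : ℝ) < (n + 1 : ℕ) := by positivity
  have hZm := hZ.nonneg Nm
  set Q := 2 * D'' * (s * Z Nm / (n + 1 : ℕ)) with hQ
  set R := Real.exp (-(τ * N1)) * (D / 2) with hR
  have hQ0 : 0 ≤ Q := by positivity
  have e0 : 0 ≤ ∑ k ∈ range (n / 2 + 1), dd Z k * (τ * Fk τ (K + 1 / τ) n k) := by
    rw [div_le_iff₀ (mo_pos hZ τ)] at hyp
    have e1 := hZ.decomp fun N => Real.exp (-(τ * N)) * (K + 1 / τ - N)
    have e2 : ∑ N ∈ range (n + 1), Z N * (Real.exp (-(τ * N)) * (K + 1 / τ - N))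
        = (K + 1 / τ) * mo Z n 0 τ - mo Z n 1 τ := by
      rw [mo, mo, mul_sum, ← sum_sub_distrib]
      exact sum_congr rfl fun N _ => by ring
    simp only [mul_left_comm _ τ, ← mul_sum]
    refine mul_nonneg hτ.le ?_
    simp only [Fk]
    rw [← e1, e2]
    linarith
  have e3 : ∀ k ∈ range (n / 2 + 1), dd Z k * (τ * Fk τ (K + 1 / τ) n k) ≤
      (if k ∈ range (Nm + 1) then dd Z k * (2 * D') else 0) + Q
        - if k ∈ Ioc Nm N1 then dd Z k * R else 0 := by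
    intro k hk
    have hk2 : 2 * k ≤ n := by have := mem_range.1 hk; omega
    have hd := hZ.dd_nonneg hk2
    have mid : (k : ℝ) ≤ q → ∃ g, 1 / 2 ≤ g ∧ g ≤ 2 ∧
        τ * Fk τ (K + 1 / τ) n k ≤ Real.exp (-(τ * k)) * (g * (K1 - k)) := fun hkq =>
      Fk_mid hτ hτ1 hu hk2 (hq.trans (mul_le_mul_of_nonneg_left (by linarith) hτ.le)) hK
    have ex1 : Real.exp (-(τ * k)) ≤ 1 := Real.exp_le_one_iff.2 (neg_nonpos.2 (by positivity))
    have up : ∀ X, 0 ≤ X → (k : ℝ) ≤ q → K1 - k ≤ X → τ * Fk τ (K + 1 / τ) n k ≤ 2 * X :=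
      fun X hX hkq hkX => by
        obtain ⟨g, g1, g2, g3⟩ := mid hkq
        have : g * (K1 - k) ≤ 2 * X :=
          (mul_le_mul_of_nonneg_left hkX (by linarith)).trans (mul_le_mul_of_nonneg_right g2 hX)
        exact g3.trans ((mul_le_mul_of_nonneg_left this (Real.exp_pos _).le).trans
          (mul_le_of_le_one_left (by positivity) ex1))
    by_cases c1 : k ≤ Nm
    · have hkq : (k : ℝ) ≤ q := le_trans (Nat.cast_le.2 (c1.trans h1)) h2
      rw [if_pos (mem_range.2 (Nat.lt_succ_of_le c1)), if_neg (by simp; omega), sub_zero]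
      by_cases c2 : (k : ℝ) ≤ a
      · have b1 : dd Z k ≤ s * Z Nm / (n + 1 : ℕ) := by
          rw [le_div_iff₀ hn, mul_comm]
          exact (mul_le_mul_of_nonneg_left (dd_le hZ k) hn.le).trans (hsm k c2)
        have b2 := up D'' hD''0 hkq (by linarith [Nat.cast_nonneg (α := ℝ) k])
        have b3 : dd Z k * (τ * Fk τ (K + 1 / τ) n k) ≤ Q :=
          (mul_le_mul_of_nonneg_left b2 hd).trans (by
            rw [hQ, mul_comm]; exact mul_le_mul_of_nonneg_left b1 (by positivity))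
        have b4 : 0 ≤ dd Z k * (2 * D') := by positivity
        linarith
      · have b2 := up D' hD'0 hkq (by linarith [not_le.1 c2])
        linarith [mul_le_mul_of_nonneg_left b2 hd]
    · have c1' : (Nm : ℝ) ≤ k := Nat.cast_le.2 (not_le.1 c1).le
      rw [if_neg (by simp; omega), zero_add]
      by_cases c2 : k ≤ N1
      · rw [if_pos (mem_Ioc.2 ⟨not_le.1 c1, c2⟩)]
        obtain ⟨g, g1, g2, g3⟩ := mid (le_trans (Nat.cast_le.2 c2) h2)
        have b1 : g * (K1 - k) ≤ -(D / 2) := by nlinarith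
        have b2 : Real.exp (-(τ * N1)) ≤ Real.exp (-(τ * k)) :=
          Real.exp_le_exp.2 (neg_le_neg (mul_le_mul_of_nonneg_left (Nat.cast_le.2 c2) hτ.le))
        have b3 : τ * Fk τ (K + 1 / τ) n k ≤ -R := by
          refine g3.trans ((mul_le_mul_of_nonneg_left b1 (Real.exp_pos _).le).trans ?_)
          rw [hR, mul_neg, neg_le_neg_iff]
          exact mul_le_mul_of_nonneg_right b2 (by positivity)
        linarith [mul_le_mul_of_nonneg_left b3 hd]
      · rw [if_neg (by simp; omega), sub_zero]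
        refine le_trans (mul_nonpos_of_nonneg_of_nonpos hd ?_) hQ0
        by_cases c3 : (k : ℝ) ≤ q
        · simpa using up 0 le_rfl c3 (by linarith)
        · exact Fk_nonpos hτ hk2 (by linarith [not_le.1 c3])
  have e4 := e0.trans (sum_le_sum e3)
  rw [sum_sub_distrib, sum_add_distrib, sum_ite_mem, sum_ite_mem,
    inter_eq_right.2 (range_subset_range.2 (by omega)),
    inter_eq_right.2 (fun k hk => by simp only [mem_Ioc, mem_range] at hk ⊢; omega),
    sum_const, card_range, nsmul_eq_mul, ← sum_mul, ← sum_mul, sum_dd, sum_dd_Ioc Z h1] at e4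
  have e5 : ((n / 2 + 1 : ℕ) : ℝ) * Q ≤ 2 * D'' * s * Z Nm := by
    refine (mul_le_mul_of_nonneg_right (Nat.cast_le.2 (by omega : n / 2 + 1 ≤ n + 1)) hQ0).trans
      (le_of_eq ?_)
    rw [hQ]
    field_simp
  linarith

theorem fin {d r δ x w ε u v c X Y : ℝ} {N1 : ℕ} (hd : 0 < d) (hδ : 0 < δ) (δ3 : δ ≤ r * d / 72)
    (hu : 0 < u) (hv0 : 0 < v) (hx : x = Real.exp (c / 2 * u)) (hw0 : 0 ≤ w) (hε : 0 < ε)
    (hxw : x * w ≤ δ) (ε1 : u * ε ≤ 1) (ε2 : x * (3 * ε) ≤ δ) (n1 : (N1 : ℝ) ≤ (c / 2 + ε) * v)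
    (hZ : 0 ≤ Y) (key : (X - Y) * (Real.exp (-(u / v * N1)) * (d / 2 * v / 2))
      ≤ (2 * ((w + 3 * ε) * v) + 2 * v * (δ / x)) * Y) : X ≤ (1 + r) * Y := by
  have hx0 : 0 < x := hx ▸ Real.exp_pos _
  have b1 : Real.exp (u / v * N1) ≤ x * 3 := by
    have : u / v * N1 ≤ c / 2 * u + 1 := by
      rw [div_mul_eq_mul_div, div_le_iff₀ hv0]
      linarith [mul_le_mul_of_nonneg_left n1 hu.le, mul_le_mul_of_nonneg_right ε1 hv0.le]
    refine (Real.exp_le_exp.2 this).trans ?_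
    rw [Real.exp_add, ← hx]
    exact mul_le_mul_of_nonneg_left Real.exp_one_lt_three.le hx0.le
  have b2 : x * (w + 3 * ε + δ / x) ≤ 3 * δ := by
    rw [mul_add, mul_add, mul_div_cancel₀ _ hx0.ne']
    linarith
  rw [Real.exp_neg, ← le_div_iff₀ (by positivity)] at key
  have b3 : (2 * ((w + 3 * ε) * v) + 2 * v * (δ / x)) * Y
      / ((Real.exp (u / v * N1))⁻¹ * (d / 2 * v / 2))
      = 8 / d * (Real.exp (u / v * N1) * (w + 3 * ε + δ / x)) * Y := by
    field_simp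
    ring
  have b4 : 8 / d * (Real.exp (u / v * N1) * (w + 3 * ε + δ / x)) ≤ r := by
    have b5 : Real.exp (u / v * N1) * (w + 3 * ε + δ / x) ≤ 9 * δ :=
      (mul_le_mul_of_nonneg_right b1 (by positivity)).trans (by linarith)
    rw [div_mul_eq_mul_div, div_le_iff₀ hd]
    linarith
  rw [b3] at key
  linarith [mul_le_mul_of_nonneg_right b4 hZ]

/-- the estimate at a fixed volume -/
theorem vol {Z : ℕ → ℝ} {n V : ℕ} (hU : Uni Z (n * V)) {ρ c C d r δ u x w ε : ℝ} (hn : 1 ≤ n)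
    (hlo : 0 ≤ ρ) (hhi : ρ ≤ 1 / 32) (hc : 0 < c) (hc' : c ≤ 1 / 16) (hd : 0 < d) (hδ : 0 < δ)
    (δ1 : δ ≤ d / 4) (δ2 : δ ≤ 1 / 32) (δ3 : δ ≤ r * d / 72) (hu16 : 16 ≤ u)
    (hx : x = Real.exp (c / 2 * u))
    (hwd : w = |C| * Real.exp (-(c * u)) + 4 * n * Real.exp (-(u / 2))) (hε : 0 < ε)
    (hxw : x * w ≤ δ) (ε1 : u * ε ≤ 1) (ε2 : x * (3 * ε) ≤ δ) (hv1 : 1 ≤ ε * V)
    (hy : mo Z (n * V) 1 (u / V) / mo Z (n * V) 0 (u / V) ≤
      (ρ + 1 / u + C * Real.exp (-(c * u)) + ε) * V)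
    (hld : ∀ A B : ℕ, (A : ℝ) ≤ (ρ - ε) * V → (ρ + ε) * V ≤ B → 2 * B ≤ n * V →
      ((n * V + 1 : ℕ) : ℝ) * Z A ≤ δ / x * Z B) (hlt : ⌈(ρ + d) * V⌉₊ < ⌈c / 2 * V⌉₊) :
    Z ⌈c / 2 * V⌉₊ ≤ (1 + r) * Z ⌈(ρ + d) * V⌉₊ := by
  have cn : ((n * V : ℕ) : ℝ) = n * V := Nat.cast_mul _ _
  have hn : (1 : ℝ) ≤ n := by exact_mod_cast hn
  have hu : 0 < u := by linarith
  have hx1 : 1 ≤ x := hx ▸ Real.one_le_exp (by positivity)
  have p1 : 0 ≤ |C| * Real.exp (-(c * u)) := by positivity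
  have p2 : 0 ≤ 4 * n * Real.exp (-(u / 2)) := by positivity
  have hw0 : 0 ≤ w := by linarith
  have hw1 : w ≤ δ := le_trans (le_mul_of_one_le_left hw0 hx1) hxw
  have hε1 : 3 * ε ≤ δ := le_trans (le_mul_of_one_le_left (by positivity) hx1) ε2
  have hv0 : (0 : ℝ) < V := (pos_iff_pos_of_mul_pos (one_pos.trans_le hv1)).1 hε
  have m : ∀ {a b : ℝ}, a ≤ b → a * V ≤ b * V := fun h => mul_le_mul_of_nonneg_right h hv0.le
  have huv : u ≤ V := by linarith [m ε1, mul_le_mul_of_nonneg_left hv1 hu.le]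
  have n1 : (⌈c / 2 * V⌉₊ : ℝ) ≤ (c / 2 + ε) * V := by
    linarith [Nat.ceil_lt_add_one (a := c / 2 * V) (by positivity)]
  have n2 : (⌈c / 2 * V⌉₊ : ℝ) ≤ V / 4 := by
    linarith [m (show c / 2 + ε ≤ 1 / 4 by linarith)]
  have n3 : (ρ + d) * V ≤ ⌈(ρ + d) * V⌉₊ := Nat.le_ceil _
  have n4 : 2 * ⌈c / 2 * V⌉₊ ≤ n * V := by
    have : ((2 * ⌈c / 2 * V⌉₊ : ℕ) : ℝ) ≤ (n * V : ℕ) := by
      rw [cn]; push_cast; linarith [m hn]
    exact_mod_cast this
  have τv : 1 / (u / V) = 1 / u * V := by rw [one_div_div]; ring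
  have vu : 1 / u ≤ 1 / 16 := one_div_le_one_div_of_le (by norm_num) hu16
  have eC : C * Real.exp (-(c * u)) ≤ |C| * Real.exp (-(c * u)) :=
    mul_le_mul_of_nonneg_right (le_abs_self C) (Real.exp_pos _).le
  refine fin hd hδ δ3 hu hv0 hx hw0 hε hxw ε1 ε2 n1 (hU.nonneg _)
    (main hU (τ := u / V) (u := u) (K := (ρ + |C| * Real.exp (-(c * u)) + ε) * V)
    (K1 := (ρ + w + 2 * ε) * V) (a := (ρ - ε) * V) (q := V / 4) (by positivity)
    ((div_le_one hv0).2 huv) (by linarith) ?_ ?_ hlt.le n2 n4 ?_ ?_ (by positivity)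
    (le_of_eq (by ring)) (by positivity) ?_ hv0.le (by positivity)
    (fun k hk => hld k _ hk ?_ (by omega)) (hy.trans ?_))
  · rw [cn, div_mul_eq_mul_div, le_div_iff₀ hv0]
    linarith [mul_le_mul_of_nonneg_left (m hn) hu.le]
  · rw [τv]
    linarith [m (show ρ + |C| * Real.exp (-(c * u)) + ε + ε + 1 / u ≤ 1 / 4 by linarith)]
  · have h1 : (1 : ℝ) ≤ n * V := by linarith [m hn, m (show ε ≤ 1 by linarith)]
    rw [cn, hwd]
    linarith [mul_le_mul_of_nonneg_right h1 (Real.exp_pos (-(u / 2))).le]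
  · linarith [m (show ρ + w + 2 * ε + d / 2 ≤ ρ + d by linarith)]
  · linarith [m (show ρ + w + 2 * ε ≤ 1 by linarith)]
  · linarith [m (show ρ + ε ≤ ρ + d by linarith)]
  · rw [τv]
    linarith [m eC]

end B

theorem b1 (hL : LDStmt) : B1Stmt := by
  intro n β m V Z p hS c C u0 hc hc' hyp d r hd hr
  obtain ⟨δ, hδ, δ1, δ2, δ3⟩ : ∃ δ > (0 : ℝ), δ ≤ d / 4 ∧ δ ≤ 1 / 32 ∧ δ ≤ r * d / 72 :=
    ⟨min (d / 4) (min (1 / 32) (r * d / 72)), by positivity, min_le_left _ _,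
      (min_le_right _ _).trans (min_le_left _ _), (min_le_right _ _).trans (min_le_right _ _)⟩
  have ht : Tendsto (fun u : ℝ => |C| * Real.exp (-(c / 2 * u)) + 4 * n * Real.exp (-(1 / 4 * u)))
      atTop (𝓝 (|C| * 0 + 4 * n * 0)) :=
    ((Real.tendsto_exp_neg_atTop_nhds_zero.comp
      (tendsto_id.const_mul_atTop (by positivity))).const_mul _).add
      ((Real.tendsto_exp_neg_atTop_nhds_zero.comp
        (tendsto_id.const_mul_atTop (by positivity))).const_mul _)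
  obtain ⟨u, ⟨hu0, hu16⟩, hw⟩ := (((eventually_ge_atTop u0).and (eventually_ge_atTop 16)).and
    (ht.eventually (ge_mem_nhds (by simpa using hδ)))).exists
  have hu : 0 < u := by linarith
  obtain ⟨x, hx⟩ : ∃ x, x = Real.exp (c / 2 * u) := ⟨_, rfl⟩
  have hx0 : 0 < x := hx ▸ Real.exp_pos _
  obtain ⟨ε, hε, ε1, ε2⟩ : ∃ ε > (0 : ℝ), u * ε ≤ 1 ∧ x * (3 * ε) ≤ δ := by
    refine ⟨min (1 / u) (δ / (3 * x)), by positivity, ?_, ?_⟩
    · rw [mul_comm, ← le_div_iff₀ hu]; exact min_le_left _ _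
    · rw [← mul_assoc, mul_comm, ← le_div_iff₀ (by positivity), mul_comm x]; exact min_le_right _ _
  have hxw : x * (|C| * Real.exp (-(c * u)) + 4 * n * Real.exp (-(u / 2))) ≤ δ := by
    refine le_trans ?_ hw
    rw [mul_add, mul_left_comm, mul_left_comm x, hx, ← Real.exp_add, ← Real.exp_add]
    refine add_le_add (le_of_eq (by congr 2; ring)) (mul_le_mul_of_nonneg_left
      (Real.exp_le_exp.2 (by nlinarith)) (by positivity))
  filter_upwards [hS.uni, hyp u hu0 ε hε, (hL n β m V Z p hS).2 ε (δ / x) hε (by positivity),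
    (tendsto_natCast_atTop_atTop.comp hS.vol).eventually_ge_atTop (1 / ε)] with L hU hy hld hV
  rw [or_iff_not_imp_right, not_le]
  exact B.vol hU hS.hn hS.lo hS.hi hc hc' hd hδ δ1 δ2 δ3 hu16 hx rfl hε hxw ε1 ε2
    ((div_le_iff₀' hε).1 hV) hy hld

end Crest.Agent.N337.C
end

-- ▼ part N337/C/LD

/-!
# Row 337, task C-LD (helper30): large deviations from the pressure
-/

set_option autoImplicit false

namespace Crest.Agent.N337.C

open Filter Topology Finset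

namespace Ld

/-- tilted sums -/
noncomputable def T (Z : ℕ → ℝ) (n : ℕ) (c θ : ℝ) : ℝ :=
  ∑ N ∈ range (n + 1), Z N * Real.exp (θ * (c - N))

section fin
variable {Z : ℕ → ℝ} {n : ℕ}

lemma T_pos (h : Uni Z n) (c θ : ℝ) : 0 < T Z n c θ :=
  sum_pos' (fun N _ => mul_nonneg (h.nonneg N) (Real.exp_pos _).le)
    ⟨0, mem_range.2 n.succ_pos, mul_pos h.pos (Real.exp_pos _)⟩

lemma T_eq (c θ : ℝ) : T Z n c θ = Real.exp (θ * c) * mo Z n 0 θ := by
  rw [T, mo, mul_sum]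
  refine sum_congr rfl fun N _ => ?_
  rw [mul_sub, sub_eq_add_neg, Real.exp_add]
  ring

lemma mo_pos (h : Uni Z n) (θ : ℝ) : 0 < mo Z n 0 θ := by
  have := T_pos h 0 θ
  rwa [T_eq, mul_zero, Real.exp_zero, one_mul] at this

/-- Jensen -/
lemma jensen (h : Uni Z n) (c θ : ℝ) : θ * (mo Z n 1 θ / mo Z n 0 θ) ≤
    θ * c - (Real.log (T Z n c θ) - Real.log (T Z n c 0)) := by
  have h0 := mo_pos h θ
  obtain ⟨μ, hμ⟩ : ∃ μ, μ = mo Z n 1 θ / mo Z n 0 θ := ⟨_, rfl⟩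
  have h1 : mo Z n 1 θ = μ * mo Z n 0 θ := by rw [hμ, div_mul_cancel₀ _ h0.ne']
  have h2 : Real.exp (θ * μ) * mo Z n 0 θ =
      ∑ N ∈ range (n + 1), Z N * (Real.exp (-(θ * (N - μ))) * (θ * (N - μ) + 1)) := by
    have e : Real.exp (θ * μ) * mo Z n 0 θ =
        Real.exp (θ * μ) * ((1 - θ * μ) * mo Z n 0 θ + θ * mo Z n 1 θ) := by rw [h1]; ring
    rw [e, mo, mo, mul_sum, mul_sum, ← sum_add_distrib, mul_sum]
    refine sum_congr rfl fun N _ => ?_
    rw [show -(θ * (N - μ)) = θ * μ + -(θ * N) by ring, Real.exp_add]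
    ring
  have h3 : Real.exp (θ * μ) * mo Z n 0 θ ≤ T Z n c 0 := by
    rw [h2, T]
    refine sum_le_sum fun N _ => mul_le_mul_of_nonneg_left ?_ (h.nonneg N)
    rw [zero_mul, Real.exp_zero, Real.exp_neg, inv_mul_le_iff₀ (Real.exp_pos _), mul_one]
    exact Real.add_one_le_exp _
  have h4 := Real.log_le_log (mul_pos (Real.exp_pos _) h0) h3
  rw [Real.log_mul (Real.exp_pos _).ne' h0.ne', Real.log_exp] at h4
  rw [T_eq c θ, Real.log_mul (Real.exp_pos _).ne' h0.ne', Real.log_exp, ← hμ]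
  linarith

/-- both tails are small, so the middle carries half of the tilted mass -/
lemma key (h : Uni Z n) {c θ a b δ : ℝ} (hθ : 0 < θ) {A B : ℕ} (hA : (A : ℝ) ≤ c - a)
    (hB : c - b ≤ B) (hAB : A ≤ B) (hn : 2 * B ≤ n) (hδ : δ ≤ 1 / 4)
    (h1 : T Z n c (2 * θ) * Real.exp (-(θ * a)) ≤ δ * T Z n c θ)
    (h2 : T Z n c 0 * Real.exp (θ * b) ≤ δ * T Z n c θ) :
    Z A ≤ 2 * δ * ((n + 1 : ℕ) : ℝ) * Z B := by
  have hT := T_pos h c θ
  have hδ0 : 0 ≤ δ := nonneg_of_mul_nonneg_left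
    ((mul_pos (T_pos h c 0) (Real.exp_pos _)).le.trans h2) hT
  have lo : ∀ N : ℕ, (N : ℝ) ≤ c - a → Z N * Real.exp (θ * (c - N)) ≤
      Z N * Real.exp (2 * θ * (c - N)) * Real.exp (-(θ * a)) := fun N hN => by
    rw [mul_assoc, ← Real.exp_add]
    refine mul_le_mul_of_nonneg_left (Real.exp_le_exp.2 ?_) (h.nonneg N)
    nlinarith [mul_nonneg hθ.le (sub_nonneg.2 hN)]
  have pt : ∀ N : ℕ, Z N * Real.exp (θ * (c - N)) ≤
      Z N * Real.exp (2 * θ * (c - N)) * Real.exp (-(θ * a)) +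
        Z N * Real.exp (0 * (c - N)) * Real.exp (θ * b) + Z B * Real.exp (θ * (c - A)) := fun N => by
    have p1 : 0 ≤ Z N * Real.exp (2 * θ * (c - N)) * Real.exp (-(θ * a)) :=
      mul_nonneg (mul_nonneg (h.nonneg N) (Real.exp_pos _).le) (Real.exp_pos _).le
    have p2 : 0 ≤ Z N * Real.exp (0 * (c - N)) * Real.exp (θ * b) :=
      mul_nonneg (mul_nonneg (h.nonneg N) (Real.exp_pos _).le) (Real.exp_pos _).le
    have p3 : 0 ≤ Z B * Real.exp (θ * (c - A)) := mul_nonneg (h.nonneg B) (Real.exp_pos _).le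
    rcases le_total (N : ℝ) (c - a) with h3 | h3
    · linarith [lo N h3]
    rcases le_total (c - b) (N : ℝ) with h4 | h4
    · have : Z N * Real.exp (θ * (c - N)) ≤ Z N * Real.exp (0 * (c - N)) * Real.exp (θ * b) := by
        rw [zero_mul, Real.exp_zero, mul_one]
        exact mul_le_mul_of_nonneg_left (Real.exp_le_exp.2
          (mul_le_mul_of_nonneg_left (by linarith) hθ.le)) (h.nonneg N)
      linarith
    · have : Z N * Real.exp (θ * (c - N)) ≤ Z B * Real.exp (θ * (c - A)) :=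
        mul_le_mul (h.mono N B (by exact_mod_cast h4.trans hB) hn) (Real.exp_le_exp.2
          (mul_le_mul_of_nonneg_left (by linarith) hθ.le)) (Real.exp_pos _).le (h.nonneg B)
      linarith
  have h5 : T Z n c θ ≤ T Z n c (2 * θ) * Real.exp (-(θ * a)) + T Z n c 0 * Real.exp (θ * b) +
      ((n + 1 : ℕ) : ℝ) * (Z B * Real.exp (θ * (c - A))) := by
    refine (sum_le_sum fun N _ => pt N).trans (le_of_eq ?_)
    rw [sum_add_distrib, sum_add_distrib, ← sum_mul, ← sum_mul, sum_const, card_range, nsmul_eq_mul]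
    rfl
  have h6 : Z A * Real.exp (θ * (c - A)) ≤ δ * T Z n c θ :=
    (lo A hA).trans ((mul_le_mul_of_nonneg_right (single_le_sum
      (f := fun N : ℕ => Z N * Real.exp (2 * θ * (c - N)))
      (fun N _ => mul_nonneg (h.nonneg N) (Real.exp_pos _).le) (mem_range.2 (by omega)))
      (Real.exp_pos _).le).trans h1)
  have h7 : T Z n c θ ≤ 2 * (((n + 1 : ℕ) : ℝ) * (Z B * Real.exp (θ * (c - A)))) := by
    nlinarith [mul_le_mul_of_nonneg_right hδ hT.le]
  refine le_of_mul_le_mul_right (h6.trans ((mul_le_mul_of_nonneg_left h7 hδ0).trans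
    (le_of_eq ?_))) (Real.exp_pos (θ * (c - A)))
  ring

lemma le_of_log (h : Uni Z n) {c θ θ' x y : ℝ}
    (e : Real.log (T Z n c θ') - Real.log (T Z n c θ) ≤ y - x) :
    T Z n c θ' * Real.exp x ≤ Real.exp y * T Z n c θ := by
  rw [← Real.exp_log (T_pos h c θ'), ← Real.exp_log (T_pos h c θ), ← Real.exp_add, ← Real.exp_add]
  exact Real.exp_le_exp.2 (by linarith)
end fin

variable {n : ℕ} {β m : ℝ} {V : ℕ → ℕ} {Z : ℕ → ℕ → ℝ} {p : ℝ → ℝ}

lemma slope_ge (S : Seq n β m V Z p) {h : ℝ} (hh : 0 < h) : m * h ≤ p h - p 0 := by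
  rw [← le_div_iff₀ hh]
  refine le_of_tendsto S.der ?_
  filter_upwards [Ioc_mem_nhdsGT hh] with t ht
  simpa using S.cvx.secant_mono (Set.mem_univ 0) (Set.mem_univ t) (Set.mem_univ h) ht.1.ne' hh.ne'
    ht.2

lemma ev_pos (S : Seq n β m V Z p) : ∀ᶠ L in atTop, 0 < (V L : ℝ) :=
  (S.vol.eventually (eventually_gt_atTop 0)).mono fun _ h => by exact_mod_cast h

lemma ev_diff (S : Seq n β m V Z p) {x y q : ℝ} (h : p x - p y < q) : ∀ᶠ L in atTop,
    Real.log (T (Z L) (n * V L) ((n : ℝ) * V L / 2) (β * x)) -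
      Real.log (T (Z L) (n * V L) ((n : ℝ) * V L / 2) (β * y)) ≤ β * V L * q := by
  filter_upwards [((S.lim x).sub (S.lim y)).eventually (gt_mem_nhds h), ev_pos S] with L h1 h2
  rw [← sub_div, div_lt_iff₀ (mul_pos S.hβ h2), mul_comm q] at h1
  exact h1.le

lemma ev_small (n : ℕ) {k r : ℝ} (hk : 0 < k) (hr : 0 < r) : ∀ᶠ v : ℕ in atTop,
    2 * Real.exp (-(k * v)) * ((n * v + 1 : ℕ) : ℝ) ^ 2 ≤ r := by
  have h1 : Tendsto (fun v : ℕ => 2 * ((n + 1 : ℝ) / k) ^ 2 *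
      ((k * v) ^ 2 * Real.exp (-(k * v)))) atTop (𝓝 (2 * ((n + 1 : ℝ) / k) ^ 2 * 0)) :=
    ((Real.tendsto_pow_mul_exp_neg_atTop_nhds_zero 2).comp
      (tendsto_natCast_atTop_atTop.const_mul_atTop hk)).const_mul _
  rw [mul_zero] at h1
  filter_upwards [h1.eventually (gt_mem_nhds hr), eventually_ge_atTop 1] with v h2 h3
  have h4 : (1 : ℝ) ≤ v := by exact_mod_cast h3
  have h5 : ((n * v + 1 : ℕ) : ℝ) ^ 2 ≤ ((n + 1 : ℝ) / k) ^ 2 * (k * v) ^ 2 := by
    rw [← mul_pow, ← mul_assoc, div_mul_cancel₀ _ hk.ne']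
    refine pow_le_pow_left₀ (Nat.cast_nonneg _) ?_ 2
    push_cast
    linarith
  refine le_trans ?_ h2.le
  nlinarith [mul_le_mul_of_nonneg_left h5 (Real.exp_pos (-(k * v))).le]

end Ld
open Ld

/-- **(LD)** -/
theorem ld : LDStmt := by
  intro n β m V Z p S
  refine ⟨fun h ε hh hε => ?_, fun ε r hε hr => ?_⟩
  · have h1 : p 0 - p h < -(m * h) + ε * h := by
      have := slope_ge S hh
      have := mul_pos hε hh
      linarith
    filter_upwards [ev_diff S h1, S.uni] with L h2 hU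
    have h3 := jensen hU ((n : ℝ) * V L / 2) (β * h)
    rw [mul_zero] at h2
    refine le_of_mul_le_mul_left (h3.trans ?_) (mul_pos S.hβ hh)
    linarith
  · obtain ⟨t, h1, ht⟩ := ((S.der.eventually (gt_mem_nhds (show m < m + ε / 8 by linarith))).and
      self_mem_nhdsWithin).exists
    obtain ⟨h, rfl⟩ : ∃ h, t = 2 * h := ⟨t / 2, by ring⟩
    have hh : 0 < h := by have : 0 < 2 * h := ht; linarith
    rw [div_lt_iff₀ ht] at h1
    have h0 := slope_ge S hh
    have hp := mul_pos hε hh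
    have h2 : p (2 * h) - p h < m * h + ε * h / 2 := by linarith
    have h3 : p 0 - p h < -(m * h) + ε * h / 2 := by linarith
    have hk : 0 < β * (ε * h / 2) := mul_pos S.hβ (by linarith)
    filter_upwards [ev_diff S h2, ev_diff S h3, S.uni, ev_pos S,
      S.vol.eventually (ev_small n hk hr), S.vol.eventually (ev_small 0 hk one_half_pos)]
      with L e2 e3 hU hV e4 e5 A B hA hB hn
    rw [mul_zero] at e3
    rw [mul_left_comm β 2 h] at e2
    have hAB : A ≤ B := by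
      have : (A : ℝ) ≤ B := by nlinarith [mul_pos hε hV]
      exact_mod_cast this
    have h4 := key hU (c := (n : ℝ) * V L / 2) (a := (m + ε) * V L) (b := (m - ε) * V L)
      (δ := Real.exp (-(β * (ε * h / 2) * V L))) (mul_pos S.hβ hh) (by linarith) (by linarith) hAB hn
      (by simp at e5; linarith) (le_of_log hU (e2.trans (le_of_eq (by ring))))
      (le_of_log hU (e3.trans (le_of_eq (by ring))))
    refine (mul_le_mul_of_nonneg_left h4 (Nat.cast_nonneg _)).trans ?_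
    refine le_trans (le_of_eq ?_) (mul_le_mul_of_nonneg_right e4 (hU.nonneg B))
    ring

end Crest.Agent.N337.C
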